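import Vale.Agent.P127.M3.FrontE
import Vale.Agent.P127.Stk.LibEnt

/-!
# P127 / M3 : front end, part F

The entropic form `EN m` of the maximal estimate implies the combinatorial form `CS m`.
-/

namespace Vale.Agent.P127.M3

open Finset Vale.Agent.P127 Vale.Agent.P127.Stk

variable {m : ℕ}

/-- The entropic form: a random line `(x, y)` with `x` a function of the direction `y`, and a random
time `t`; the entropy of the line given the point is at most `m` times the entropy deficit of the
time given the line. -/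
def EN (m : ℕ) : Prop :=
  ∀ ε : ℝ, 0 < ε → ∃ L₀ : ℕ, ∀ L : ℕ, L₀ ≤ L → ∀ (Ω : Type) [Fintype Ω] (P : Law Ω)
    (x y : Ω → Fin m → ℤ) (t : Ω → ℕ),
    (∀ ω i, 0 ≤ x ω i ∧ x ω i < 2 ^ L) → (∀ ω i, 0 ≤ y ω i ∧ y ω i < 2 ^ L) →
    (∀ ω, t ω < 2 ^ L) → (∀ ω ω', y ω = y ω' → x ω = x ω') →
    hc P y (fun ω => (pos L (x ω, y ω) (t ω), t ω)) ≤
      m * (L * Real.log 2 - hc P t y) + ε * L

/-- the uniform law -/
noncomputable def ulaw (Ω : Type) [Fintype Ω] [Nonempty Ω] : Law Ω where
  w := fun _ => 1 / (Fintype.card Ω : ℝ)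
  nn := fun _ => by positivity
  sum_one := by
    rw [sum_const, nsmul_eq_mul, card_univ]
    have : (0 : ℝ) < Fintype.card Ω := by exact_mod_cast Fintype.card_pos
    field_simp

/-- the entropy of a variable with fibres of the same size under the uniform law -/
lemma ulaw_H {Ω : Type} [Fintype Ω] [Nonempty Ω] {S : Type*} (X : Ω → S) {k : ℕ} (hk : 0 < k)
    (h : ∀ ω, Nat.card {ω' // X ω' = X ω} = k) :
    (ulaw Ω).H X = Real.log (Fintype.card Ω) - Real.log k := by
  classical
  have hΩ : (0 : ℝ) < Fintype.card Ω := by exact_mod_cast Fintype.card_pos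
  have hk' : (0 : ℝ) < k := by exact_mod_cast hk
  unfold Law.H
  rw [(ulaw Ω).ex_congr (g := fun _ => Real.log (Fintype.card Ω) - Real.log k), Law.ex_const]
  intro ω _
  have h1 : (ulaw Ω).pr X (X ω) = k / Fintype.card Ω := by
    unfold Law.pr ulaw
    simp only
    rw [sum_const, nsmul_eq_mul]
    have : (#{ω' | X ω' = X ω} : ℕ) = k := by
      rw [← h ω, Nat.card_eq_fintype_card, Fintype.card_subtype]
    rw [this]
    ring
  rw [h1, Real.log_div hk'.ne' hΩ.ne']
  ring

theorem CS_of_EN (h : EN m) : CS m := by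
  classical
  intro ε hε
  have hlog : 0 < Real.log 2 := Real.log_pos (by norm_num)
  obtain ⟨L₀, H⟩ := h (ε * Real.log 2) (by positivity)
  refine ⟨2 ^ ((m + 1) * L₀), by positivity, ?_⟩
  intro L T hT1 hT2 E k hk
  rcases T.eq_empty_or_nonempty with rfl | hTne
  · simp only [card_empty, CharP.cast_eq_zero, mul_zero]
    positivity
  rcases Nat.eq_zero_or_pos k with rfl | hk0
  · simp only [CharP.cast_eq_zero, ne_eq, Nat.add_eq_zero_iff, one_ne_zero, and_false,
      not_false_eq_true, zero_pow, zero_mul]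
    positivity
  have hE1 : 0 < #E := by
    obtain ⟨l, hl⟩ := hTne
    have h1 := hk l hl
    have h2 : 0 < hits L l E := lt_of_lt_of_le hk0 h1
    obtain ⟨t, ht⟩ := card_pos.1 h2
    exact card_pos.2 ⟨_, (mem_filter.1 ht).2⟩
  have hE1r : (1 : ℝ) ≤ #E := by exact_mod_cast hE1
  have hT0 : 0 < #T := card_pos.2 hTne
  have hkL : k ≤ 2 ^ L := by
    obtain ⟨l, hl⟩ := hTne
    exact (hk l hl).trans (hits_le L l E)
  have hcT := card_lines_le L T hT1 hT2
  have h1ε : (1 : ℝ) ≤ (2 : ℝ) ^ (ε * L) := Real.one_le_rpow (by norm_num) (by positivity)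
  by_cases hL : L < L₀
  · -- small scales
    have e1 : (k : ℝ) ^ (m + 1) ≤ 2 ^ ((m + 1) * L₀) := by
      calc (k : ℝ) ^ (m + 1) ≤ (2 ^ L₀) ^ (m + 1) := by
            refine pow_le_pow_left₀ (by positivity) ?_ _
            have : (k : ℝ) ≤ 2 ^ L := by exact_mod_cast hkL
            exact this.trans (pow_le_pow_right₀ (by norm_num) hL.le)
        _ = _ := by rw [← pow_mul, mul_comm]
    have e2 : (#T : ℝ) ≤ 2 ^ (m * L) := by exact_mod_cast hcT
    calc (k : ℝ) ^ (m + 1) * #T ≤ 2 ^ ((m + 1) * L₀) * 2 ^ (m * L) :=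
          mul_le_mul e1 e2 (by positivity) (by positivity)
      _ = 2 ^ ((m + 1) * L₀) * 1 * 2 ^ (m * L) * 1 := by ring
      _ ≤ _ := by gcongr
  · push Not at hL
    -- shadings with exactly `k` elements
    have hsub : ∀ l : (Fin m → ℤ) × (Fin m → ℤ), ∃ Y : Finset ℕ, l ∈ T →
        (Y ⊆ (range (2 ^ L)).filter fun t => (pos L l t, t) ∈ E) ∧ #Y = k := by
      intro l
      by_cases hl : l ∈ T
      · obtain ⟨Y, hY1, hY2⟩ := exists_subset_card_eq (hk l hl)
        exact ⟨Y, fun _ => ⟨hY1, hY2⟩⟩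
      · exact ⟨∅, fun h => absurd h hl⟩
    choose Y hY using hsub
    set F : Finset ((_ : (Fin m → ℤ) × (Fin m → ℤ)) × ℕ) := T.sigma Y with hF
    have hFcard : #F = #T * k := by
      rw [hF, card_sigma, sum_congr rfl fun l hl => (hY l hl).2, sum_const, smul_eq_mul]
    have hF0 : 0 < #F := by rw [hFcard]; exact Nat.mul_pos hT0 hk0
    have hne : Nonempty F := by
      obtain ⟨p, hp⟩ := card_pos.1 hF0
      exact ⟨⟨p, hp⟩⟩
    have hFm : ∀ p : F, p.1.1 ∈ T ∧ p.1.2 ∈ Y p.1.1 := fun p => mem_sigma.1 p.2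
    set P : Law F := ulaw F with hP
    set x : F → Fin m → ℤ := fun p => p.1.1.1 with hx
    set y : F → Fin m → ℤ := fun p => p.1.1.2 with hy
    set t : F → ℕ := fun p => p.1.2 with ht
    have hyl : ∀ p q : F, y p = y q → p.1.1 = q.1.1 := fun p q h =>
      hT2 _ (hFm p).1 _ (hFm q).1 h
    have hkey := H L hL F P x y t (fun p i => (hT1 _ (hFm p).1 i).1)
      (fun p i => (hT1 _ (hFm p).1 i).2)
      (fun p => mem_range.1 (mem_filter.1 ((hY _ (hFm p).1).1 (hFm p).2)).1)
      (fun p q h => by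
        show p.1.1.1 = q.1.1.1
        rw [hyl p q h])
    have hcF : (Fintype.card F : ℝ) = #T * k := by
      rw [Fintype.card_coe, hFcard]
      push_cast
      rfl
    have hTr : (0 : ℝ) < #T := by exact_mod_cast hT0
    have hkr : (0 : ℝ) < k := by exact_mod_cast hk0
    have hlcF : Real.log (Fintype.card F) = Real.log #T + Real.log k := by
      rw [hcF, Real.log_mul hTr.ne' hkr.ne']
    have hHy : P.H y = Real.log #T := by
      rw [hP, ulaw_H y hk0, hlcF]
      · ring
      · intro p
        have e : {q : F // y q = y p} ≃ (Y p.1.1 : Finset ℕ) :=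
          { toFun := fun q => ⟨q.1.1.2, by
              have h1 := (hFm q.1).2
              rwa [hyl q.1 p q.2] at h1⟩
            invFun := fun s => ⟨⟨⟨p.1.1, s.1⟩, mem_sigma.2 ⟨(hFm p).1, s.2⟩⟩, rfl⟩
            left_inv := by
              rintro ⟨⟨⟨l, s⟩, hq⟩, hq2⟩
              have h1 : l = p.1.1 := hyl ⟨⟨l, s⟩, hq⟩ p hq2
              subst h1
              rfl
            right_inv := fun s => rfl }
        rw [Nat.card_congr e, Nat.card_eq_fintype_card, Fintype.card_coe, (hY _ (hFm p).1).2]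
    have hHty : P.H (fun p => (t p, y p)) = Real.log #T + Real.log k := by
      rw [hP, ulaw_H (fun p : F => (t p, y p)) one_pos, hlcF]
      · simp
      · intro p
        rw [Nat.card_eq_one_iff_unique]
        refine ⟨⟨fun a b => ?_⟩, ⟨⟨p, rfl⟩⟩⟩
        suffices hall : ∀ q : {q : F // (t q, y q) = (t p, y p)}, q = ⟨p, rfl⟩ by
          rw [hall a, hall b]
        rintro ⟨q, hq⟩
        rw [Prod.mk.injEq] at hq
        have h1 : q.1.1 = p.1.1 := hyl q p hq.2
        have h2 : q.1.2 = p.1.2 := hq.1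
        refine Subtype.ext (Subtype.ext ?_)
        exact Sigma.ext h1 (heq_of_eq h2)
    have hHyZ : P.H (fun p => (y p, (pos L (x p, y p) (t p), t p))) =
        P.H (fun p => (t p, y p)) := by
      refine P.H_congr fun p q => ?_
      simp only [Prod.mk.injEq]
      constructor
      · rintro ⟨h1, _, h3⟩
        exact ⟨h3, h1⟩
      · rintro ⟨h1, h2⟩
        have h3 : x p = x q := by
          show p.1.1.1 = q.1.1.1
          rw [hyl p q h2]
        exact ⟨h2, by rw [h1, h2, h3], h1⟩
    have hHZ : P.H (fun p => (pos L (x p, y p) (t p), t p)) ≤ Real.log #E := by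
      have hZ : ∀ p : F, (pos L (x p, y p) (t p), t p) ∈ E := fun p =>
        (mem_filter.1 ((hY _ (hFm p).1).1 (hFm p).2)).2
      have h1 := P.H_le_log_card (fun p => (⟨_, hZ p⟩ : E))
      rw [Fintype.card_coe] at h1
      refine le_trans (le_of_eq ?_) h1
      refine P.H_congr fun p q => ?_
      rw [Subtype.mk.injEq]
    unfold hc at hkey
    rw [hHyZ, hHty, hHy] at hkey
    -- the final computation
    have hEr : (0 : ℝ) < #E := by linarith
    have hfin : Real.log ((k : ℝ) ^ (m + 1) * #T) ≤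
        Real.log ((2 : ℝ) ^ (ε * L) * 2 ^ (m * L) * #E) := by
      rw [Real.log_mul (by positivity) hTr.ne', Real.log_pow, Real.log_mul (by positivity) hEr.ne',
        Real.log_mul (by positivity) (by positivity), Real.log_rpow (by norm_num), Real.log_pow]
      push_cast
      nlinarith
    have hfin2 := (Real.log_le_log_iff (by positivity) (by positivity)).1 hfin
    refine hfin2.trans ?_
    have h1 : (1 : ℝ) ≤ 2 ^ ((m + 1) * L₀) := one_le_pow₀ (by norm_num)
    have h2 : 0 ≤ (2 : ℝ) ^ (ε * L) * 2 ^ (m * L) * #E := by positivity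
    nlinarith

/-- the entropic estimate implies the maximal inequality -/
theorem kmax_of_EN (h : EN m) : KMax m := kmax_of_CS (CS_of_EN h)

end Vale.Agent.P127.M3
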