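import Vale.Agent.P127.M3.FrontH
import Vale.Agent.P127.U.JS

/-!
# P127 / M3 : front end, part I

The Kakeya maximal inequality in `R^3` from the finite inequality `JF N β` for all prices `N > 2` and
all rates `β > 0`.
-/

namespace Vale.Agent.P127.M3

open Vale.Agent.P127 Vale.Agent.P127.Stk

/-- arbitrarily small rates give the rate `0` -/
theorem JF_zero {N : ℝ} (h : ∀ β : ℝ, 0 < β → U.JF N β) : U.JF N 0 := by
  intro ε hε
  obtain ⟨K, hK⟩ := h (ε / 2) (by positivity) (ε / 2) (by positivity)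
  refine ⟨K, fun Ω _ P l t n hl => ?_⟩
  have h1 := hK Ω P l t n hl
  have e : ε / 2 + ε / 2 = 0 + ε := by ring
  rwa [e] at h1

/-- a larger price gives a weaker inequality -/
theorem JF_mono {N N' β : ℝ} (hN : N ≤ N') (h : U.JF N β) : U.JF N' β := by
  intro ε hε
  obtain ⟨K, hK⟩ := h ε hε
  refine ⟨K + N' * 0 + (N' - N) * Real.log 9, fun Ω _ P l t n hl => ?_⟩
  have h1 := hK Ω P l t n hl
  have hlog : 0 < Real.log 2 := Real.log_pos (by norm_num)
  -- at most `2 ^ n + 1` digits of the time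
  have h2 : Stk.hc P (fun ω => fl1 n (t ω)) (fun ω => U.tb n (l ω)) ≤ n * Real.log 2 + Real.log 9 := by
    refine (Stk.hc_le_H P _ _).trans ?_
    have h3 := Stk.hc_le_log P (fun ω => fl1 n (t ω)) (fun _ : Ω => ()) (2 ^ n + 1) (fun ω _ =>
      ⟨Finset.Icc (0 : ℤ) (2 ^ n), by
        rw [Int.card_Icc]
        have : ((2 : ℤ) ^ n + 1 - 0).toNat = 2 ^ n + 1 := by
          have e : ((2 : ℤ) ^ n + 1 - 0) = ((2 ^ n + 1 : ℕ) : ℤ) := by push_cast; ring
          rw [e, Int.toNat_natCast]
        rw [this], fun ω' hω' _ => by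
        obtain ⟨-, h0, h1⟩ := hl ω' hω'
        have hp : (0 : ℝ) < 2 ^ n := by positivity
        rw [Finset.mem_Icc]
        unfold fl1
        constructor
        · exact Int.floor_nonneg.2 (mul_nonneg hp.le h0)
        · have : ⌊(2 : ℝ) ^ n * t ω'⌋ ≤ ⌊(((2 : ℤ) ^ n : ℤ) : ℝ)⌋ := by
            refine Int.floor_le_floor ?_
            push_cast
            nlinarith
          rwa [Int.floor_intCast] at this⟩)
    have h4 : Stk.hc P (fun ω => fl1 n (t ω)) (fun _ : Ω => ()) = P.H (fun ω => fl1 n (t ω)) := by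
      unfold Stk.hc
      have h5 : P.H (fun _ : Ω => ()) = 0 := by
        have h6 : P.H (fun _ : Ω => ()) ≤ Real.log (Fintype.card Unit) := P.H_le_log_card _
        simp only [Fintype.card_unit, Nat.cast_one, Real.log_one] at h6
        exact le_antisymm h6 (P.H_nonneg _)
      rw [h5, sub_zero]
      exact P.H_congr fun ω ω' => by simp
    rw [← h4]
    refine h3.trans ?_
    have h7 : (((2 ^ n + 1 : ℕ)) : ℝ) ≤ 2 ^ n * 9 := by
      push_cast
      have : (1 : ℝ) ≤ 2 ^ n := one_le_pow₀ (by norm_num)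
      linarith
    refine (Real.log_le_log (by positivity) h7).trans (le_of_eq ?_)
    rw [Real.log_mul (by positivity) (by norm_num), Real.log_pow]
  have h3 : 0 ≤ (N' - N) * (n * Real.log 2 + Real.log 9 -
      Stk.hc P (fun ω => fl1 n (t ω)) (fun ω => U.tb n (l ω))) :=
    mul_nonneg (by linarith) (by linarith)
  nlinarith

/-- **the Kakeya maximal inequality in `R^3` from `JF N β` for all `N > 2` and `β > 0`** -/
theorem kmax_of_JF (h : ∀ N : ℝ, 2 < N → ∀ β : ℝ, 0 < β → U.JF N β) : KMax 2 :=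
  kmax_of_JS fun N hN => U.pJS N 0 (by linarith) le_rfl (JF_zero (h N hN))

/-- the same from the price `2` -/
theorem kmax_of_JF_two (h : ∀ β : ℝ, 0 < β → U.JF 2 β) : KMax 2 :=
  kmax_of_JF fun _ hN β hβ => JF_mono hN.le (h β hβ)

end Vale.Agent.P127.M3
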