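import Vale.Agent.P127.MaxSphere
import Vale.Agent.P127.Scale

/-!
# P127 / M3 : front end, part A

The combinatorial maximal estimate `CS m` (lines in different directions at the scale `2^{-L}`, with
arbitrary shadings) implies the discrete maximal inequality for functions.
-/

namespace Vale.Agent.P127.M3

open Finset

variable {m : ℕ}

/-- the integer cell of the point of the line `l = (x, y)` at the time `t`, at the scale `2^{-L}`:
the line is `t ↦ x + t y / 2^L` in units of `2^{-L}` -/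
def pos (L : ℕ) (l : (Fin m → ℤ) × (Fin m → ℤ)) (t : ℕ) : Fin m → ℤ :=
  fun i => l.1 i + t * l.2 i / 2 ^ L

/-- the number of times `t` at which the line `l` is in the set `E` of cells -/
def hits (L : ℕ) (l : (Fin m → ℤ) × (Fin m → ℤ)) (E : Finset ((Fin m → ℤ) × ℕ)) : ℕ :=
  #{t ∈ range (2 ^ L) | (pos L l t, t) ∈ E}

/-- The combinatorial maximal estimate: `T` is a family of lines with pairwise different
directions, each of which meets `E` at `k` times at least. -/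
def CS (m : ℕ) : Prop :=
  ∀ ε : ℝ, 0 < ε → ∃ C : ℝ, 0 < C ∧ ∀ (L : ℕ) (T : Finset ((Fin m → ℤ) × (Fin m → ℤ))),
    (∀ l ∈ T, ∀ i, (0 ≤ l.1 i ∧ l.1 i < 2 ^ L) ∧ (0 ≤ l.2 i ∧ l.2 i < 2 ^ L)) →
    (∀ l ∈ T, ∀ l' ∈ T, l.2 = l'.2 → l = l') →
    ∀ (E : Finset ((Fin m → ℤ) × ℕ)) (k : ℕ), (∀ l ∈ T, k ≤ hits L l E) →
      (k : ℝ) ^ (m + 1) * #T ≤ C * (2 : ℝ) ^ (ε * L) * 2 ^ (m * L) * #E

lemma hits_le (L : ℕ) (l : (Fin m → ℤ) × (Fin m → ℤ)) (E : Finset ((Fin m → ℤ) × ℕ)) :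
    hits L l E ≤ 2 ^ L := by
  refine (card_filter_le _ _).trans ?_
  rw [card_range]

/-- polynomials in `L` are smaller than `2 ^ (ε L)` -/
lemma poly_le (d : ℕ) {ε : ℝ} (hε : 0 < ε) :
    ∃ C : ℝ, 0 < C ∧ ∀ L : ℕ, ((L : ℝ) + 2) ^ d ≤ C * (2 : ℝ) ^ (ε * L) := by
  set c : ℝ := ε * Real.log 2 with hc
  have hl : 0 < Real.log 2 := Real.log_pos (by norm_num)
  have hc0 : 0 < c := by positivity
  refine ⟨d.factorial / c ^ d * Real.exp (2 * c), by positivity, fun L => ?_⟩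
  have h1 := Real.pow_div_factorial_le_exp (c * ((L : ℝ) + 2)) (by positivity) d
  rw [div_le_iff₀ (by positivity), mul_pow] at h1
  have h2 : (2 : ℝ) ^ (ε * L) = Real.exp (c * L) := by
    rw [Real.rpow_def_of_pos (by norm_num)]
    congr 1
    rw [hc]
    ring
  rw [h2]
  have h3 : Real.exp (c * (L + 2)) = Real.exp (2 * c) * Real.exp (c * L) := by
    rw [← Real.exp_add]
    congr 1
    ring
  rw [h3] at h1
  have h4 : ((L : ℝ) + 2) ^ d = c ^ d * ((L : ℝ) + 2) ^ d / c ^ d := by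
    field_simp
  rw [h4, div_le_iff₀ (by positivity)]
  refine h1.trans (le_of_eq ?_)
  field_simp

/-- the number of lines with different directions -/
lemma card_lines_le (L : ℕ) (T : Finset ((Fin m → ℤ) × (Fin m → ℤ)))
    (h1 : ∀ l ∈ T, ∀ i, (0 ≤ l.1 i ∧ l.1 i < 2 ^ L) ∧ (0 ≤ l.2 i ∧ l.2 i < 2 ^ L))
    (h2 : ∀ l ∈ T, ∀ l' ∈ T, l.2 = l'.2 → l = l') : #T ≤ 2 ^ (m * L) := by
  classical
  have h3 : #T ≤ #(Fintype.piFinset fun _ : Fin m => Finset.Ico (0 : ℤ) (2 ^ L)) := by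
    refine card_le_card_of_injOn Prod.snd (fun l hl => ?_) (fun l hl l' hl' h => h2 l hl l' hl' h)
    rw [mem_coe, Fintype.mem_piFinset]
    exact fun i => mem_Ico.2 (h1 l hl i).2
  refine h3.trans (le_of_eq ?_)
  rw [Fintype.card_piFinset, prod_const, card_univ, Fintype.card_fin, Int.card_Ico, sub_zero]
  have : ((2 : ℤ) ^ L).toNat = 2 ^ L := by
    have : ((2 : ℤ) ^ L) = ((2 ^ L : ℕ) : ℤ) := by push_cast; rfl
    rw [this, Int.toNat_natCast]
  rw [this, ← pow_mul, mul_comm]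

/-- restricted strong type -/
lemma strong_of_CS {C ε : ℝ} {L : ℕ} {T : Finset ((Fin m → ℤ) × (Fin m → ℤ))}
    {E : Finset ((Fin m → ℤ) × ℕ)}
    (H : ∀ (T' : Finset ((Fin m → ℤ) × (Fin m → ℤ))), T' ⊆ T → ∀ k : ℕ,
      (∀ l ∈ T', k ≤ hits L l E) →
      (k : ℝ) ^ (m + 1) * #T' ≤ C * (2 : ℝ) ^ (ε * L) * 2 ^ (m * L) * #E) :
    ∑ l ∈ T, (hits L l E : ℝ) ^ (m + 1) ≤
      2 ^ (m + 1) * (L + 1) * (C * (2 : ℝ) ^ (ε * L) * 2 ^ (m * L) * #E) := by
  classical
  set A : ℝ := C * (2 : ℝ) ^ (ε * L) * 2 ^ (m * L) * #E with hA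
  have h1 : ∀ l ∈ T, (hits L l E : ℝ) ^ (m + 1) ≤
      ∑ i ∈ range (L + 1), if 2 ^ i ≤ hits L l E ∧ hits L l E < 2 ^ (i + 1) then
        (2 : ℝ) ^ (m + 1) * ((2 ^ i : ℕ) : ℝ) ^ (m + 1) else 0 := by
    intro l _
    rcases Nat.eq_zero_or_pos (hits L l E) with h0 | h0
    · rw [h0]
      simp only [CharP.cast_eq_zero, ne_eq, Nat.add_eq_zero_iff, one_ne_zero, and_false,
        not_false_eq_true, zero_pow]
      refine sum_nonneg fun i _ => ?_
      split_ifs
      · positivity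
      · exact le_rfl
    · set i := Nat.log 2 (hits L l E) with hi
      have h2 : 2 ^ i ≤ hits L l E := Nat.pow_log_le_self 2 h0.ne'
      have h3 : hits L l E < 2 ^ (i + 1) := Nat.lt_pow_succ_log_self (by norm_num) _
      have h4 : i ∈ range (L + 1) := by
        rw [mem_range, Nat.lt_succ_iff]
        exact (Nat.pow_le_pow_iff_right (by norm_num : 1 < 2)).1 (h2.trans (hits_le L l E))
      refine le_trans ?_ (single_le_sum (f := fun i => if 2 ^ i ≤ hits L l E ∧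
        hits L l E < 2 ^ (i + 1) then (2 : ℝ) ^ (m + 1) * ((2 ^ i : ℕ) : ℝ) ^ (m + 1) else 0)
        (fun i _ => ?_) h4)
      · rw [if_pos ⟨h2, h3⟩, ← mul_pow]
        refine pow_le_pow_left₀ (by positivity) ?_ _
        have : ((hits L l E : ℕ) : ℝ) ≤ ((2 ^ (i + 1) : ℕ) : ℝ) := by exact_mod_cast h3.le
        refine this.trans (le_of_eq ?_)
        push_cast
        ring
      · split_ifs
        · positivity
        · exact le_rfl
  refine (sum_le_sum h1).trans ?_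
  rw [sum_comm]
  have h5 : ∀ i ∈ range (L + 1), (∑ l ∈ T, if 2 ^ i ≤ hits L l E ∧ hits L l E < 2 ^ (i + 1) then
        (2 : ℝ) ^ (m + 1) * ((2 ^ i : ℕ) : ℝ) ^ (m + 1) else 0) ≤ 2 ^ (m + 1) * A := by
    intro i _
    rw [← sum_filter, sum_const, nsmul_eq_mul]
    have h6 := H (T.filter fun l => 2 ^ i ≤ hits L l E ∧ hits L l E < 2 ^ (i + 1))
      (filter_subset _ _) (2 ^ i) (fun l hl => (mem_filter.1 hl).2.1)
    calc _ = (2 : ℝ) ^ (m + 1) * ((((2 ^ i : ℕ) : ℝ)) ^ (m + 1) *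
          #(T.filter fun l => 2 ^ i ≤ hits L l E ∧ hits L l E < 2 ^ (i + 1))) := by ring
      _ ≤ _ := mul_le_mul_of_nonneg_left h6 (by positivity)
  refine (sum_le_sum h5).trans (le_of_eq ?_)
  rw [sum_const, card_range, nsmul_eq_mul]
  push_cast
  ring

/-- the discrete maximal inequality for functions on a finite set `S` -/
lemma disc_real {C ε : ℝ} (hC : 0 < C) {L : ℕ} {T : Finset ((Fin m → ℤ) × (Fin m → ℤ))}
    (hT : #T ≤ 2 ^ (m * L))
    (H : ∀ (T' : Finset ((Fin m → ℤ) × (Fin m → ℤ))), T' ⊆ T →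
      ∀ (E : Finset ((Fin m → ℤ) × ℕ)) (k : ℕ),
      (∀ l ∈ T', k ≤ hits L l E) →
      (k : ℝ) ^ (m + 1) * #T' ≤ C * (2 : ℝ) ^ (ε * L) * 2 ^ (m * L) * #E)
    (S : Finset ((Fin m → ℤ) × ℕ)) (hS : ∀ l ∈ T, ∀ t ∈ range (2 ^ L), (pos L l t, t) ∈ S)
    (f : (Fin m → ℤ) × ℕ → ℝ) (hf : ∀ z, 0 ≤ f z) :
    ∑ l ∈ T, (∑ t ∈ range (2 ^ L), f (pos L l t, t)) ^ (m + 1) ≤
      ((L : ℝ) + 2) ^ m * (2 ^ (m + 1) * (2 ^ (m + 1) * (L + 1) * (C * (2 : ℝ) ^ (ε * L) *
        2 ^ (m * L))) + 2 ^ (m * L)) * ∑ z ∈ S, f z ^ (m + 1) := by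
  classical
  rcases T.eq_empty_or_nonempty with rfl | ⟨l0, hl0⟩
  · rw [sum_empty]
    have : 0 ≤ ∑ z ∈ S, f z ^ (m + 1) := sum_nonneg fun z _ => pow_nonneg (hf z) _
    positivity
  have hSne : S.Nonempty := ⟨_, hS l0 hl0 0 (mem_range.2 (by positivity))⟩
  obtain ⟨z0, hz0, hmax⟩ := exists_max_image S f hSne
  set M := f z0 with hM
  have hM0 : 0 ≤ M := hf z0
  have hMS : M ^ (m + 1) ≤ ∑ z ∈ S, f z ^ (m + 1) :=
    single_le_sum (f := fun z => f z ^ (m + 1)) (fun z _ => pow_nonneg (hf z) _) hz0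
  set Ej : ℕ → Finset ((Fin m → ℤ) × ℕ) := fun j =>
    S.filter fun z => M * (1 / 2) ^ (j + 1) < f z ∧ f z ≤ M * (1 / 2) ^ j with hEj
  -- pointwise bound
  have hpt : ∀ z ∈ S, f z ≤ ∑ j ∈ range (L + 1), (if z ∈ Ej j then M * (1 / 2) ^ j else 0) +
      M * (1 / 2) ^ (L + 1) := by
    intro z hz
    have hnn : 0 ≤ ∑ j ∈ range (L + 1), (if z ∈ Ej j then M * (1 / 2) ^ j else 0) := by
      refine sum_nonneg fun j _ => ?_
      split_ifs
      · positivity
      · exact le_rfl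
    by_cases hlow : f z ≤ M * (1 / 2) ^ (L + 1)
    · linarith
    · push Not at hlow
      have hex : ∃ j, M * (1 / 2) ^ (j + 1) < f z := ⟨L, hlow⟩
      set j := Nat.find hex with hj
      have hj1 : M * (1 / 2) ^ (j + 1) < f z := Nat.find_spec hex
      have hjL : j ≤ L := Nat.find_min' hex hlow
      have hj2 : f z ≤ M * (1 / 2) ^ j := by
        rcases Nat.eq_zero_or_pos j with h0 | h0
        · rw [h0, pow_zero, mul_one]
          exact hmax z hz
        · have := Nat.find_min hex (m := j - 1) (by omega)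
          push Not at this
          rwa [Nat.sub_add_cancel h0] at this
      have h1 : (if z ∈ Ej j then M * (1 / 2) ^ j else 0) ≤
          ∑ j ∈ range (L + 1), (if z ∈ Ej j then M * (1 / 2) ^ j else 0) := by
        refine single_le_sum (f := fun j => if z ∈ Ej j then M * (1 / 2) ^ j else 0)
          (fun j _ => ?_) (mem_range.2 (by omega))
        split_ifs
        · positivity
        · exact le_rfl
      rw [if_pos (mem_filter.2 ⟨hz, hj1, hj2⟩)] at h1
      have : 0 ≤ M * (1 / 2) ^ (L + 1) := by positivity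
      linarith
  -- the sum over a line
  have hline : ∀ l ∈ T, ∑ t ∈ range (2 ^ L), f (pos L l t, t) ≤
      ∑ j ∈ range (L + 1), M * (1 / 2) ^ j * hits L l (Ej j) + M := by
    intro l hl
    calc _ ≤ ∑ t ∈ range (2 ^ L), (∑ j ∈ range (L + 1),
          (if (pos L l t, t) ∈ Ej j then M * (1 / 2) ^ j else 0) + M * (1 / 2) ^ (L + 1)) :=
          sum_le_sum fun t ht => hpt _ (hS l hl t ht)
      _ = ∑ j ∈ range (L + 1), M * (1 / 2) ^ j * hits L l (Ej j) +
          2 ^ L * (M * (1 / 2) ^ (L + 1)) := by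
          rw [sum_add_distrib, sum_comm, sum_const, card_range, nsmul_eq_mul]
          push_cast
          congr 1
          refine sum_congr rfl fun j _ => ?_
          rw [← sum_filter, sum_const, nsmul_eq_mul, hits]
          ring
      _ ≤ _ := by
          refine add_le_add le_rfl ?_
          have : (2 : ℝ) ^ L * (M * (1 / 2) ^ (L + 1)) = M / 2 := by
            rw [pow_succ, one_div, inv_pow]
            field_simp
          rw [this]
          linarith
  have hpow : ∀ l ∈ T, (∑ t ∈ range (2 ^ L), f (pos L l t, t)) ^ (m + 1) ≤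
      ((L : ℝ) + 2) ^ m * (∑ j ∈ range (L + 1), (M * (1 / 2) ^ j * hits L l (Ej j)) ^ (m + 1) +
        M ^ (m + 1)) := by
    intro l hl
    have h1 := pow_le_pow_left₀ (sum_nonneg fun t _ => hf _) (hline l hl) (m + 1)
    refine h1.trans ?_
    set g : ℕ → ℝ := fun j => if j < L + 1 then M * (1 / 2) ^ j * hits L l (Ej j) else M with hg
    have h2 : ∑ j ∈ range (L + 2), g j =
        ∑ j ∈ range (L + 1), M * (1 / 2) ^ j * hits L l (Ej j) + M := by
      rw [sum_range_succ]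
      congr 1
      · refine sum_congr rfl fun j hj => ?_
        rw [hg]
        simp only
        rw [if_pos (mem_range.1 hj)]
      · rw [hg]
        simp
    have h3 : ∑ j ∈ range (L + 2), g j ^ (m + 1) =
        ∑ j ∈ range (L + 1), (M * (1 / 2) ^ j * hits L l (Ej j)) ^ (m + 1) + M ^ (m + 1) := by
      rw [sum_range_succ]
      congr 1
      · refine sum_congr rfl fun j hj => ?_
        rw [hg]
        simp only
        rw [if_pos (mem_range.1 hj)]
      · rw [hg]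
        simp
    have h4 := pow_sum_div_card_le_sum_pow (s := range (L + 2)) (f := g) (n := m)
      (fun j _ => by
        rw [hg]
        simp only
        split_ifs
        · positivity
        · exact hM0)
    rw [h2, h3, card_range, div_le_iff₀ (by positivity)] at h4
    refine h4.trans (le_of_eq ?_)
    push_cast
    ring
  -- sum over the lines
  have hstrong : ∀ j, ∑ l ∈ T, (hits L l (Ej j) : ℝ) ^ (m + 1) ≤
      2 ^ (m + 1) * (L + 1) * (C * (2 : ℝ) ^ (ε * L) * 2 ^ (m * L) * #(Ej j)) := fun j =>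
    strong_of_CS fun T' hT' k hk => H T' hT' (Ej j) k hk
  set B : ℝ := 2 ^ (m + 1) * (L + 1) * (C * (2 : ℝ) ^ (ε * L) * 2 ^ (m * L)) with hB
  have hB0 : 0 ≤ B := by positivity
  have hlev : ∀ j, (M * (1 / 2) ^ j) ^ (m + 1) * #(Ej j) ≤
      2 ^ (m + 1) * ∑ z ∈ Ej j, f z ^ (m + 1) := by
    intro j
    have h1 : ∀ z ∈ Ej j, (M * (1 / 2) ^ (j + 1)) ^ (m + 1) ≤ f z ^ (m + 1) := by
      intro z hz
      exact pow_le_pow_left₀ (by positivity) (mem_filter.1 hz).2.1.le _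
    have h2 := sum_le_sum h1
    rw [sum_const, nsmul_eq_mul] at h2
    calc (M * (1 / 2) ^ j) ^ (m + 1) * #(Ej j) =
        2 ^ (m + 1) * (#(Ej j) * (M * (1 / 2) ^ (j + 1)) ^ (m + 1)) := by
          have : M * (1 / 2) ^ j = 2 * (M * (1 / 2) ^ (j + 1)) := by
            rw [pow_succ]
            ring
          rw [this, mul_pow]
          ring
      _ ≤ _ := mul_le_mul_of_nonneg_left h2 (by positivity)
  have hdisj : ∑ j ∈ range (L + 1), ∑ z ∈ Ej j, f z ^ (m + 1) ≤ ∑ z ∈ S, f z ^ (m + 1) := by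
    rw [← sum_biUnion]
    · refine sum_le_sum_of_subset_of_nonneg ?_ fun z _ _ => pow_nonneg (hf z) _
      intro z hz
      obtain ⟨j, _, hj⟩ := mem_biUnion.1 hz
      exact (mem_filter.1 hj).1
    · intro j _ j' _ hjj
      rw [Function.onFun, disjoint_left]
      intro z hz hz'
      have h1 := (mem_filter.1 hz).2
      have h2 := (mem_filter.1 hz').2
      rcases lt_or_gt_of_ne hjj with h | h
      · have h3 : M * (1 / 2) ^ j' ≤ M * (1 / 2) ^ (j + 1) :=
          mul_le_mul_of_nonneg_left (pow_le_pow_of_le_one (by norm_num) (by norm_num) h) hM0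
        linarith [h1.1, h2.2]
      · have h3 : M * (1 / 2) ^ j ≤ M * (1 / 2) ^ (j' + 1) :=
          mul_le_mul_of_nonneg_left (pow_le_pow_of_le_one (by norm_num) (by norm_num) h) hM0
        linarith [h2.1, h1.2]
  calc ∑ l ∈ T, (∑ t ∈ range (2 ^ L), f (pos L l t, t)) ^ (m + 1)
      ≤ ∑ l ∈ T, ((L : ℝ) + 2) ^ m * (∑ j ∈ range (L + 1),
        (M * (1 / 2) ^ j * hits L l (Ej j)) ^ (m + 1) + M ^ (m + 1)) := sum_le_sum hpow
    _ = ((L : ℝ) + 2) ^ m * (∑ j ∈ range (L + 1), (M * (1 / 2) ^ j) ^ (m + 1) *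
          ∑ l ∈ T, (hits L l (Ej j) : ℝ) ^ (m + 1) + #T * M ^ (m + 1)) := by
        rw [← mul_sum, sum_add_distrib, sum_comm, sum_const, nsmul_eq_mul]
        have : ∑ j ∈ range (L + 1), ∑ l ∈ T, (M * (1 / 2) ^ j * hits L l (Ej j)) ^ (m + 1) =
            ∑ j ∈ range (L + 1), (M * (1 / 2) ^ j) ^ (m + 1) *
              ∑ l ∈ T, (hits L l (Ej j) : ℝ) ^ (m + 1) := by
          refine sum_congr rfl fun j _ => ?_
          rw [mul_sum]
          exact sum_congr rfl fun l _ => mul_pow _ _ _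
        rw [this]
    _ ≤ ((L : ℝ) + 2) ^ m * (∑ j ∈ range (L + 1),
          B * (2 ^ (m + 1) * ∑ z ∈ Ej j, f z ^ (m + 1)) +
          2 ^ (m * L) * ∑ z ∈ S, f z ^ (m + 1)) := by
        refine mul_le_mul_of_nonneg_left (add_le_add (sum_le_sum fun j _ => ?_) ?_) (by positivity)
        · calc (M * (1 / 2) ^ j) ^ (m + 1) * ∑ l ∈ T, (hits L l (Ej j) : ℝ) ^ (m + 1)
              ≤ (M * (1 / 2) ^ j) ^ (m + 1) * (2 ^ (m + 1) * (L + 1) *
                (C * (2 : ℝ) ^ (ε * L) * 2 ^ (m * L) * #(Ej j))) :=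
                mul_le_mul_of_nonneg_left (hstrong j) (by positivity)
            _ = B * ((M * (1 / 2) ^ j) ^ (m + 1) * #(Ej j)) := by rw [hB]; ring
            _ ≤ _ := mul_le_mul_of_nonneg_left (hlev j) hB0
        · refine mul_le_mul (by exact_mod_cast hT) hMS (by positivity) (by positivity)
    _ = ((L : ℝ) + 2) ^ m * (B * 2 ^ (m + 1) * ∑ j ∈ range (L + 1), ∑ z ∈ Ej j, f z ^ (m + 1) +
          2 ^ (m * L) * ∑ z ∈ S, f z ^ (m + 1)) := by
        have : ∑ j ∈ range (L + 1), B * (2 ^ (m + 1) * ∑ z ∈ Ej j, f z ^ (m + 1)) =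
            B * 2 ^ (m + 1) * ∑ j ∈ range (L + 1), ∑ z ∈ Ej j, f z ^ (m + 1) := by
          rw [mul_sum]
          exact sum_congr rfl fun j _ => by ring
        rw [this]
    _ ≤ ((L : ℝ) + 2) ^ m * (B * 2 ^ (m + 1) * ∑ z ∈ S, f z ^ (m + 1) +
          2 ^ (m * L) * ∑ z ∈ S, f z ^ (m + 1)) := by
        refine mul_le_mul_of_nonneg_left (add_le_add ?_ le_rfl) (by positivity)
        exact mul_le_mul_of_nonneg_left hdisj (by positivity)
    _ = _ := by ring

end Vale.Agent.P127.M3
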