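import Vale.Agent.P127.M3.FrontA

/-!
# P127 / M3 : front end, part B

The discrete maximal inequality for lines in arbitrary position.
-/

namespace Vale.Agent.P127.M3

open Finset

variable {m : ℕ}

/-- the box of directions -/
noncomputable def Ybox (m L : ℕ) : Finset (Fin m → ℤ) := Fintype.piFinset fun _ => Finset.Ico (0 : ℤ) (2 ^ L)

lemma mem_Ybox {L : ℕ} {y : Fin m → ℤ} : y ∈ Ybox m L ↔ ∀ i, 0 ≤ y i ∧ y i < 2 ^ L := by
  simp [Ybox, Fintype.mem_piFinset]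

/-- the discrete inequality for lines in the box -/
def DM0 (m : ℕ) : Prop :=
  ∀ ε : ℝ, 0 < ε → ∃ C : ℝ, 0 < C ∧ ∀ (L : ℕ) (T : Finset ((Fin m → ℤ) × (Fin m → ℤ))),
    (∀ l ∈ T, ∀ i, (0 ≤ l.1 i ∧ l.1 i < 2 ^ L) ∧ (0 ≤ l.2 i ∧ l.2 i < 2 ^ L)) →
    (∀ l ∈ T, ∀ l' ∈ T, l.2 = l'.2 → l = l') →
    ∀ G : (Fin m → ℤ) × ℕ → ENNReal,
      ∑ l ∈ T, (∑ t ∈ range (2 ^ L), G (pos L l t, t)) ^ (m + 1) ≤
        ENNReal.ofReal (C * (2 : ℝ) ^ (ε * L) * 2 ^ (m * L)) * ∑' z, G z ^ (m + 1)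

theorem dm0_of_CS (h : CS m) : DM0 m := by
  classical
  intro ε hε
  obtain ⟨C, hC, H⟩ := h (ε / 2) (by positivity)
  obtain ⟨C1, hC1, H1⟩ := poly_le (m + 1) (ε := ε / 2) (by positivity)
  refine ⟨C1 * (2 ^ (m + 1) * 2 ^ (m + 1) * C + 1), by positivity, ?_⟩
  intro L T hT1 hT2 G
  set K : ℝ := C1 * (2 ^ (m + 1) * 2 ^ (m + 1) * C + 1) * (2 : ℝ) ^ (ε * L) * 2 ^ (m * L) with hK
  have hK0 : 0 < K := by positivity
  by_cases htop : ∑' z, G z ^ (m + 1) = ⊤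
  · rw [htop, ENNReal.mul_top (by simpa using hK0)]
    exact le_top
  have hG : ∀ z, G z ≠ ⊤ := by
    intro z hz
    have := ENNReal.ne_top_of_tsum_ne_top htop z
    rw [hz] at this
    simp at this
  set f : (Fin m → ℤ) × ℕ → ℝ := fun z => (G z).toReal with hf
  have hGf : ∀ z, G z = ENNReal.ofReal (f z) := fun z => (ENNReal.ofReal_toReal (hG z)).symm
  have hf0 : ∀ z, 0 ≤ f z := fun z => ENNReal.toReal_nonneg
  set S : Finset ((Fin m → ℤ) × ℕ) :=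
    T.biUnion fun l => (range (2 ^ L)).image fun t => (pos L l t, t) with hS
  have key := disc_real (ε := ε / 2) hC (card_lines_le L T hT1 hT2)
    (fun T' hT' E k hk => H L T' (fun l hl => hT1 l (hT' hl))
      (fun l hl l' hl' => hT2 l (hT' hl) l' (hT' hl')) E k hk) S
    (fun l hl t ht => mem_biUnion.2 ⟨l, hl, mem_image.2 ⟨t, ht, rfl⟩⟩) f hf0
  have hS0 : 0 ≤ ∑ z ∈ S, f z ^ (m + 1) := sum_nonneg fun z _ => pow_nonneg (hf0 z) _
  have hconst : ((L : ℝ) + 2) ^ m * (2 ^ (m + 1) * (2 ^ (m + 1) * (L + 1) *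
      (C * (2 : ℝ) ^ (ε / 2 * L) * 2 ^ (m * L))) + 2 ^ (m * L)) ≤ K := by
    have h1 : (1 : ℝ) ≤ (2 : ℝ) ^ (ε / 2 * L) :=
      Real.one_le_rpow (by norm_num) (by positivity)
    have h2 : (2 : ℝ) ^ (ε * L) = (2 : ℝ) ^ (ε / 2 * L) * (2 : ℝ) ^ (ε / 2 * L) := by
      rw [← Real.rpow_add (by norm_num)]
      congr 1
      ring
    set X : ℝ := (2 : ℝ) ^ (ε / 2 * L) with hX
    have h3 : (2 : ℝ) ^ (m + 1) * (2 ^ (m + 1) * (L + 1) * (C * X * 2 ^ (m * L))) +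
        2 ^ (m * L) ≤ ((L : ℝ) + 2) * ((2 ^ (m + 1) * 2 ^ (m + 1) * C + 1) * X * 2 ^ (m * L)) := by
      have hL : (0 : ℝ) ≤ L := Nat.cast_nonneg L
      have e1 : (2 : ℝ) ^ (m + 1) * (2 ^ (m + 1) * (L + 1) * (C * X * 2 ^ (m * L))) ≤
          ((L : ℝ) + 2) * (2 ^ (m + 1) * 2 ^ (m + 1) * C * X * 2 ^ (m * L)) := by
        have : (0 : ℝ) ≤ 2 ^ (m + 1) * 2 ^ (m + 1) * C * X * 2 ^ (m * L) := by positivity
        nlinarith
      have e2 : (2 : ℝ) ^ (m * L) ≤ ((L : ℝ) + 2) * (X * 2 ^ (m * L)) := by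
        have e3 : (0 : ℝ) < 2 ^ (m * L) := by positivity
        have e4 : (1 : ℝ) ≤ ((L : ℝ) + 2) * X := by nlinarith
        nlinarith
      calc _ ≤ ((L : ℝ) + 2) * (2 ^ (m + 1) * 2 ^ (m + 1) * C * X * 2 ^ (m * L)) +
            ((L : ℝ) + 2) * (X * 2 ^ (m * L)) := add_le_add e1 e2
        _ = _ := by ring
    calc _ ≤ ((L : ℝ) + 2) ^ m *
          (((L : ℝ) + 2) * ((2 ^ (m + 1) * 2 ^ (m + 1) * C + 1) * X * 2 ^ (m * L))) :=
          mul_le_mul_of_nonneg_left h3 (by positivity)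
      _ = ((L : ℝ) + 2) ^ (m + 1) * ((2 ^ (m + 1) * 2 ^ (m + 1) * C + 1) * X * 2 ^ (m * L)) := by
          ring
      _ ≤ (C1 * X) * ((2 ^ (m + 1) * 2 ^ (m + 1) * C + 1) * X * 2 ^ (m * L)) :=
          mul_le_mul_of_nonneg_right (H1 L) (by positivity)
      _ = K := by rw [hK, h2]; ring
  have hL : ∑ l ∈ T, (∑ t ∈ range (2 ^ L), G (pos L l t, t)) ^ (m + 1) =
      ENNReal.ofReal (∑ l ∈ T, (∑ t ∈ range (2 ^ L), f (pos L l t, t)) ^ (m + 1)) := by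
    rw [ENNReal.ofReal_sum_of_nonneg (fun l _ => pow_nonneg (sum_nonneg fun t _ => hf0 _) _)]
    refine sum_congr rfl fun l _ => ?_
    rw [ENNReal.ofReal_pow (sum_nonneg fun t _ => hf0 _),
      ENNReal.ofReal_sum_of_nonneg (fun t _ => hf0 _)]
    congr 1
    exact sum_congr rfl fun t _ => hGf _
  have hR : ENNReal.ofReal (∑ z ∈ S, f z ^ (m + 1)) ≤ ∑' z, G z ^ (m + 1) := by
    rw [ENNReal.ofReal_sum_of_nonneg (fun z _ => pow_nonneg (hf0 z) _)]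
    refine le_trans (le_of_eq ?_) (ENNReal.sum_le_tsum S)
    refine sum_congr rfl fun z _ => ?_
    rw [ENNReal.ofReal_pow (hf0 z), ← hGf]
  rw [hL]
  refine (ENNReal.ofReal_le_ofReal (key.trans (mul_le_mul_of_nonneg_right hconst hS0))).trans ?_
  rw [ENNReal.ofReal_mul hK0.le]
  exact mul_le_mul_right hR _

/-- the base cell and the relative cell together -/
def glue (L : ℕ) (κ : (Fin m → ℤ) × ℤ) (z : (Fin m → ℤ) × ℕ) : (Fin m → ℤ) × ℤ :=
  (fun i => z.1 i + 2 ^ L * κ.1 i, κ.2 * 2 ^ L + z.2)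

/-- the overlap of the boxes is at most `2 ^ m` -/
lemma overlap (L : ℕ) (F : (Fin m → ℤ) × ℤ → ENNReal) :
    ∑' κ : (Fin m → ℤ) × ℤ, ∑' z : (Fin m → ℤ) × ℕ,
      (if (∀ i, 0 ≤ z.1 i ∧ z.1 i < 2 * 2 ^ L) ∧ z.2 < 2 ^ L then F (glue L κ z) else 0) ≤
      2 ^ m * ∑' w, F w := by
  classical
  set B : Finset (Fin m → ℤ) := Fintype.piFinset fun _ => Finset.Ico (0 : ℤ) 2 with hB
  have hcard : (#B : ENNReal) = 2 ^ m := by
    rw [hB, Fintype.card_piFinset]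
    simp
  have h1 : ∀ (κ : (Fin m → ℤ) × ℤ) (z : (Fin m → ℤ) × ℕ),
      (if (∀ i, 0 ≤ z.1 i ∧ z.1 i < 2 * 2 ^ L) ∧ z.2 < 2 ^ L then F (glue L κ z) else 0) ≤
      ∑ b ∈ B, (if (∀ i, z.1 i / 2 ^ L = b i) ∧ z.2 < 2 ^ L then F (glue L κ z) else 0) := by
    intro κ z
    split_ifs with h
    · have hb : (fun i => z.1 i / 2 ^ L) ∈ B := by
        rw [hB, Fintype.mem_piFinset]
        intro i
        rw [mem_Ico]
        refine ⟨Int.ediv_nonneg (h.1 i).1 (by positivity), ?_⟩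
        rw [Int.ediv_lt_iff_lt_mul (by positivity)]
        exact (h.1 i).2
      refine le_trans (le_of_eq ?_) (single_le_sum (f := fun b : Fin m → ℤ =>
        (if (∀ i, z.1 i / 2 ^ L = b i) ∧ z.2 < 2 ^ L then F (glue L κ z) else 0))
        (fun _ _ => zero_le) hb)
      simp only [implies_true, true_and]
      rw [if_pos h.2]
    · exact zero_le
  have h2 : ∀ b : Fin m → ℤ, ∑' κ : (Fin m → ℤ) × ℤ, ∑' z : (Fin m → ℤ) × ℕ,
      (if (∀ i, z.1 i / 2 ^ L = b i) ∧ z.2 < 2 ^ L then F (glue L κ z) else 0) ≤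
      ∑' w, F w := by
    intro b
    rw [← ENNReal.tsum_prod]
    set s : Set (((Fin m → ℤ) × ℤ) × ((Fin m → ℤ) × ℕ)) :=
      {p | (∀ i, p.2.1 i / 2 ^ L = b i) ∧ p.2.2 < 2 ^ L} with hs
    have h3 : ∀ p : ((Fin m → ℤ) × ℤ) × ((Fin m → ℤ) × ℕ),
        (if (∀ i, p.2.1 i / 2 ^ L = b i) ∧ p.2.2 < 2 ^ L then F (glue L p.1 p.2) else 0) =
        s.indicator (fun p => F (glue L p.1 p.2)) p := by
      intro p
      rw [Set.indicator_apply]
      rfl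
    simp_rw [h3]
    rw [← tsum_subtype s (fun p => F (glue L p.1 p.2))]
    refine ENNReal.tsum_comp_le_tsum_of_injective (f := fun p : s => glue L p.1.1 p.1.2) ?_ F
    rintro ⟨⟨κ, z⟩, hz1, hz2⟩ ⟨⟨κ', z'⟩, hz1', hz2'⟩ he
    simp only at hz1 hz2 hz1' hz2' he
    unfold glue at he
    rw [Prod.mk.injEq] at he
    have hp : (0 : ℤ) < 2 ^ L := by positivity
    have hz2c : (z.2 : ℤ) < 2 ^ L := by exact_mod_cast hz2
    have hz2c' : (z'.2 : ℤ) < 2 ^ L := by exact_mod_cast hz2'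
    have e1 : (κ.2 * 2 ^ L + (z.2 : ℤ)) / 2 ^ L = κ.2 := by
      rw [add_comm, Int.add_mul_ediv_right _ _ hp.ne', Int.ediv_eq_zero_of_lt (by positivity) hz2c,
        zero_add]
    have e2 : (κ'.2 * 2 ^ L + (z'.2 : ℤ)) / 2 ^ L = κ'.2 := by
      rw [add_comm, Int.add_mul_ediv_right _ _ hp.ne',
        Int.ediv_eq_zero_of_lt (by positivity) hz2c', zero_add]
    have e3 : κ.2 = κ'.2 := by rw [← e1, ← e2, he.2]
    have e4 : z.2 = z'.2 := by
      have := he.2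
      rw [e3] at this
      exact_mod_cast add_left_cancel this
    have e5 : κ.1 = κ'.1 := by
      funext i
      have h4 := congrFun he.1 i
      have h5 : (z.1 i + 2 ^ L * κ.1 i) / 2 ^ L = b i + κ.1 i := by
        rw [Int.add_mul_ediv_left _ _ hp.ne', hz1 i]
      have h6 : (z'.1 i + 2 ^ L * κ'.1 i) / 2 ^ L = b i + κ'.1 i := by
        rw [Int.add_mul_ediv_left _ _ hp.ne', hz1' i]
      rw [h4, h6] at h5
      exact (add_left_cancel h5).symm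
    have e6 : z.1 = z'.1 := by
      funext i
      have h4 := congrFun he.1 i
      rw [e5] at h4
      exact add_right_cancel h4
    rw [Subtype.mk.injEq]
    exact Prod.ext (Prod.ext e5 e3) (Prod.ext e6 e4)
  calc _ ≤ ∑' κ : (Fin m → ℤ) × ℤ, ∑' z : (Fin m → ℤ) × ℕ, ∑ b ∈ B,
        (if (∀ i, z.1 i / 2 ^ L = b i) ∧ z.2 < 2 ^ L then F (glue L κ z) else 0) :=
        ENNReal.tsum_le_tsum fun κ => ENNReal.tsum_le_tsum fun z => h1 κ z
    _ = ∑ b ∈ B, ∑' κ : (Fin m → ℤ) × ℤ, ∑' z : (Fin m → ℤ) × ℕ,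
        (if (∀ i, z.1 i / 2 ^ L = b i) ∧ z.2 < 2 ^ L then F (glue L κ z) else 0) := by
        rw [← Summable.tsum_finsetSum fun _ _ => ENNReal.summable]
        refine tsum_congr fun κ => ?_
        rw [← Summable.tsum_finsetSum fun _ _ => ENNReal.summable]
    _ ≤ ∑ _b ∈ B, ∑' w, F w := sum_le_sum fun b _ => h2 b
    _ = _ := by rw [sum_const, nsmul_eq_mul, hcard]

/-- the discrete inequality for lines in arbitrary position -/
lemma dm_choice {C ε : ℝ} {L : ℕ}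
    (H : ∀ (T : Finset ((Fin m → ℤ) × (Fin m → ℤ))),
      (∀ l ∈ T, ∀ i, (0 ≤ l.1 i ∧ l.1 i < 2 ^ L) ∧ (0 ≤ l.2 i ∧ l.2 i < 2 ^ L)) →
      (∀ l ∈ T, ∀ l' ∈ T, l.2 = l'.2 → l = l') →
      ∀ G : (Fin m → ℤ) × ℕ → ENNReal,
      ∑ l ∈ T, (∑ t ∈ range (2 ^ L), G (pos L l t, t)) ^ (m + 1) ≤
        ENNReal.ofReal (C * (2 : ℝ) ^ (ε * L) * 2 ^ (m * L)) * ∑' z, G z ^ (m + 1))
    (F : (Fin m → ℤ) × ℤ → ENNReal) (X : (Fin m → ℤ) → Fin m → ℤ) (h : (Fin m → ℤ) → ℤ) :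
    ∑ y ∈ Ybox m L, (∑ t ∈ range (2 ^ L), F (pos L (X y, y) t, h y * 2 ^ L + t)) ^ (m + 1) ≤
      ENNReal.ofReal (C * (2 : ℝ) ^ (ε * L) * 2 ^ (m * L)) * (2 ^ m * ∑' w, F w ^ (m + 1)) := by
  classical
  have hp : (0 : ℤ) < 2 ^ L := by positivity
  set key : (Fin m → ℤ) → (Fin m → ℤ) × ℤ := fun y => (fun i => X y i / 2 ^ L, h y) with hkey
  set Ks : Finset ((Fin m → ℤ) × ℤ) := (Ybox m L).image key with hKs
  set G : (Fin m → ℤ) × ℤ → (Fin m → ℤ) × ℕ → ENNReal := fun κ z =>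
    if (∀ i, 0 ≤ z.1 i ∧ z.1 i < 2 * 2 ^ L) ∧ z.2 < 2 ^ L then F (glue L κ z) else 0 with hG
  set red : (Fin m → ℤ) → (Fin m → ℤ) × (Fin m → ℤ) := fun y => (fun i => X y i % 2 ^ L, y)
    with hred
  have hredinj : Function.Injective red := fun y y' he => (Prod.mk.inj he).2
  have hG1 : ∀ y ∈ Ybox m L, ∀ t ∈ range (2 ^ L),
      F (pos L (X y, y) t, h y * 2 ^ L + t) = G (key y) (pos L (red y) t, t) := by
    intro y hy t ht
    rw [mem_Ybox] at hy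
    rw [mem_range] at ht
    have ht' : (t : ℤ) < 2 ^ L := by exact_mod_cast ht
    have h1 : ∀ i, 0 ≤ (t : ℤ) * y i / 2 ^ L ∧ (t : ℤ) * y i / 2 ^ L < 2 ^ L := by
      intro i
      constructor
      · exact Int.ediv_nonneg (mul_nonneg (by positivity) (hy i).1) hp.le
      · rw [Int.ediv_lt_iff_lt_mul hp]
        have h2 := hy i
        nlinarith [mul_nonneg (Int.natCast_nonneg t) (sub_nonneg.2 h2.2.le)]
    have h2 : ∀ i, 0 ≤ pos L (red y) t i ∧ pos L (red y) t i < 2 * 2 ^ L := by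
      intro i
      have h3 := h1 i
      have h4 := Int.emod_nonneg (X y i) hp.ne'
      have h5 := Int.emod_lt_of_pos (X y i) hp
      simp only [pos, hred]
      constructor
      · exact add_nonneg h4 h3.1
      · linarith [h3.2]
    simp only [hG]
    rw [if_pos ⟨h2, ht⟩]
    congr 1
    unfold glue
    simp only [Prod.mk.injEq, and_true, hkey]
    funext i
    simp only [pos, hred]
    have := Int.emod_add_mul_ediv (X y i) (2 ^ L)
    linarith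
  have h1 : ∀ κ ∈ Ks, ∑ y ∈ (Ybox m L).filter (fun y => key y = κ),
      (∑ t ∈ range (2 ^ L), F (pos L (X y, y) t, h y * 2 ^ L + t)) ^ (m + 1) ≤
      ENNReal.ofReal (C * (2 : ℝ) ^ (ε * L) * 2 ^ (m * L)) * ∑' z, G κ z ^ (m + 1) := by
    intro κ _
    have h2 : ∑ y ∈ (Ybox m L).filter (fun y => key y = κ),
        (∑ t ∈ range (2 ^ L), F (pos L (X y, y) t, h y * 2 ^ L + t)) ^ (m + 1) =
        ∑ l ∈ ((Ybox m L).filter (fun y => key y = κ)).image red,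
          (∑ t ∈ range (2 ^ L), G κ (pos L l t, t)) ^ (m + 1) := by
      rw [sum_image fun y _ y' _ he => hredinj he]
      refine sum_congr rfl fun y hy => ?_
      rw [mem_filter] at hy
      congr 1
      refine sum_congr rfl fun t ht => ?_
      rw [hG1 y hy.1 t ht, hy.2]
    rw [h2]
    refine H _ ?_ ?_ (G κ)
    · intro l hl i
      obtain ⟨y, hy, rfl⟩ := mem_image.1 hl
      rw [mem_filter, mem_Ybox] at hy
      exact ⟨⟨Int.emod_nonneg _ hp.ne', Int.emod_lt_of_pos _ hp⟩, hy.1 i⟩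
    · intro l hl l' hl' he
      obtain ⟨y, hy, rfl⟩ := mem_image.1 hl
      obtain ⟨y', hy', rfl⟩ := mem_image.1 hl'
      simp only [hred] at he
      rw [he]
  calc ∑ y ∈ Ybox m L, (∑ t ∈ range (2 ^ L), F (pos L (X y, y) t, h y * 2 ^ L + t)) ^ (m + 1)
      = ∑ κ ∈ Ks, ∑ y ∈ (Ybox m L).filter (fun y => key y = κ),
        (∑ t ∈ range (2 ^ L), F (pos L (X y, y) t, h y * 2 ^ L + t)) ^ (m + 1) :=
        (sum_fiberwise_of_maps_to (fun y hy => mem_image_of_mem key hy) _).symm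
    _ ≤ ∑ κ ∈ Ks, ENNReal.ofReal (C * (2 : ℝ) ^ (ε * L) * 2 ^ (m * L)) *
          ∑' z, G κ z ^ (m + 1) := sum_le_sum h1
    _ = ENNReal.ofReal (C * (2 : ℝ) ^ (ε * L) * 2 ^ (m * L)) *
          ∑ κ ∈ Ks, ∑' z, G κ z ^ (m + 1) := by rw [mul_sum]
    _ ≤ ENNReal.ofReal (C * (2 : ℝ) ^ (ε * L) * 2 ^ (m * L)) *
          ∑' κ, ∑' z, G κ z ^ (m + 1) :=
        mul_le_mul_right (ENNReal.sum_le_tsum Ks) _
    _ ≤ _ := by
        refine mul_le_mul_right ?_ _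
        refine le_trans (le_of_eq ?_) (overlap L fun w => F w ^ (m + 1))
        refine tsum_congr fun κ => tsum_congr fun z => ?_
        simp only [hG]
        split_ifs
        · rfl
        · exact zero_pow (Nat.succ_ne_zero m)

/-- the discrete maximal function -/
noncomputable def dmax (L : ℕ) (F : (Fin m → ℤ) × ℤ → ENNReal) (y : Fin m → ℤ) : ENNReal :=
  ⨆ (X : Fin m → ℤ) (h : ℤ), ∑ t ∈ range (2 ^ L), F (pos L (X, y) t, h * 2 ^ L + t)

/-- the discrete maximal inequality -/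
def DM (m : ℕ) : Prop :=
  ∀ ε : ℝ, 0 < ε → ∃ C : ℝ, 0 < C ∧ ∀ (L : ℕ) (F : (Fin m → ℤ) × ℤ → ENNReal),
    ∑ y ∈ Ybox m L, dmax L F y ^ (m + 1) ≤
      ENNReal.ofReal (C * (2 : ℝ) ^ (ε * L) * 2 ^ (m * L)) * ∑' w, F w ^ (m + 1)

theorem dm_of_CS (h : CS m) : DM m := by
  classical
  intro ε hε
  obtain ⟨C, hC, H⟩ := dm0_of_CS h ε hε
  refine ⟨2 ^ (m + 1) * (2 ^ m * C), by positivity, fun L F => ?_⟩
  have hK0 : 0 < C * (2 : ℝ) ^ (ε * L) * 2 ^ (m * L) := by positivity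
  have hRK : ENNReal.ofReal (2 ^ (m + 1) * (2 ^ m * C) * (2 : ℝ) ^ (ε * L) * 2 ^ (m * L)) =
      2 ^ (m + 1) * (ENNReal.ofReal (C * (2 : ℝ) ^ (ε * L) * 2 ^ (m * L)) * 2 ^ m) := by
    have h2 : (2 : ENNReal) = ENNReal.ofReal 2 := by norm_num
    rw [h2, ← ENNReal.ofReal_pow (by norm_num), ← ENNReal.ofReal_pow (by norm_num),
      ← ENNReal.ofReal_mul (by positivity), ← ENNReal.ofReal_mul (by positivity)]
    congr 1
    ring
  rw [hRK]
  set R : ENNReal := ENNReal.ofReal (C * (2 : ℝ) ^ (ε * L) * 2 ^ (m * L)) with hR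
  have hR0 : R ≠ 0 := by simpa [hR] using hK0
  by_cases htop : ∑' w, F w ^ (m + 1) = ⊤
  · rw [htop, ENNReal.mul_top]
    · exact le_top
    · simp [hR0]
  have hchoice := fun X h => dm_choice (H L) F X h
  have hfin : ∀ y ∈ Ybox m L, dmax L F y ≠ ⊤ := by
    intro y _
    have hF : ∀ w, F w ≤ (∑' w, F w ^ (m + 1)) ^ ((m + 1 : ℕ) : ℝ)⁻¹ := by
      intro w
      have h1 := ENNReal.rpow_le_rpow (ENNReal.le_tsum (f := fun w => F w ^ (m + 1)) w)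
        (z := ((m + 1 : ℕ) : ℝ)⁻¹) (by positivity)
      refine le_trans (le_of_eq ?_) h1
      rw [← ENNReal.rpow_natCast, ← ENNReal.rpow_mul, mul_inv_cancel₀ (by positivity),
        ENNReal.rpow_one]
    have h2 : dmax L F y ≤ 2 ^ L * (∑' w, F w ^ (m + 1)) ^ ((m + 1 : ℕ) : ℝ)⁻¹ := by
      refine iSup_le fun X => iSup_le fun h => ?_
      refine (sum_le_sum fun t _ => hF _).trans (le_of_eq ?_)
      rw [sum_const, card_range, nsmul_eq_mul]
      push_cast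
      rfl
    refine ne_top_of_le_ne_top ?_ h2
    exact ENNReal.mul_ne_top (by simp) (ENNReal.rpow_ne_top_of_nonneg (by positivity) htop)
  have hex : ∀ y : Fin m → ℤ, ∃ (X : Fin m → ℤ) (h : ℤ), y ∈ Ybox m L →
      dmax L F y ≤ 2 * ∑ t ∈ range (2 ^ L), F (pos L (X, y) t, h * 2 ^ L + t) := by
    intro y
    by_cases hy : y ∈ Ybox m L
    · by_cases h0 : dmax L F y = 0
      · exact ⟨0, 0, fun _ => by rw [h0]; exact zero_le⟩
      · have h1 : dmax L F y / 2 < dmax L F y := ENNReal.half_lt_self h0 (hfin y hy)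
        conv at h1 => rhs; unfold dmax
        obtain ⟨X, h2⟩ := lt_iSup_iff.1 h1
        obtain ⟨h, h3⟩ := lt_iSup_iff.1 h2
        refine ⟨X, h, fun _ => ?_⟩
        rw [mul_comm]
        exact (ENNReal.div_le_iff_le_mul (by simp) (by simp)).1 h3.le
    · exact ⟨0, 0, fun h => absurd h hy⟩
  choose X hX using hex
  choose h hh using hX
  calc ∑ y ∈ Ybox m L, dmax L F y ^ (m + 1)
      ≤ ∑ y ∈ Ybox m L, (2 * ∑ t ∈ range (2 ^ L),
        F (pos L (X y, y) t, h y * 2 ^ L + t)) ^ (m + 1) :=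
        sum_le_sum fun y hy => pow_le_pow_left' (hh y hy) _
    _ = 2 ^ (m + 1) * ∑ y ∈ Ybox m L, (∑ t ∈ range (2 ^ L),
        F (pos L (X y, y) t, h y * 2 ^ L + t)) ^ (m + 1) := by
        rw [mul_sum]
        exact sum_congr rfl fun y _ => mul_pow _ _ _
    _ ≤ 2 ^ (m + 1) * (R * (2 ^ m * ∑' w, F w ^ (m + 1))) :=
        mul_le_mul_right (hchoice X h) _
    _ = _ := by ring

end Vale.Agent.P127.M3
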