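import Vale.Agent.P127.M3.FrontB

/-!
# P127 / M3 : front end, part C

Tubes and cells: the average of a function over a tube is bounded by the discrete maximal function.
-/

namespace Vale.Agent.P127.M3

open MeasureTheory Finset

variable {m : ℕ}

lemma volume_box (h r : ℝ) (_hh : 0 ≤ h) (hr : 0 ≤ r) :
    volume {z : EuclideanSpace ℝ (Fin (m + 1)) | |z.ofLp (Fin.last m)| ≤ h ∧
      ∀ c : Fin m, |z.ofLp (Fin.castSucc c)| ≤ r} = ENNReal.ofReal (2 * h * (2 * r) ^ m) := by
  have h1 : {z : EuclideanSpace ℝ (Fin (m + 1)) | |z.ofLp (Fin.last m)| ≤ h ∧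
      ∀ c : Fin m, |z.ofLp (Fin.castSucc c)| ≤ r} =
      (fun z : EuclideanSpace ℝ (Fin (m + 1)) => z.ofLp) ⁻¹'
      (Set.Icc (Fin.snoc (α := fun _ => ℝ) (fun _ => -r) (-h))
        (Fin.snoc (α := fun _ => ℝ) (fun _ => r) h)) := by
    ext z
    simp only [Set.mem_ofPred_eq, Set.mem_preimage, Set.mem_Icc, Pi.le_def, abs_le]
    constructor
    · rintro ⟨h1, h2⟩
      constructor
      · intro i
        refine Fin.lastCases ?_ (fun c => ?_) i
        · simpa only [Fin.snoc_last] using h1.1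
        · simpa only [Fin.snoc_castSucc] using (h2 c).1
      · intro i
        refine Fin.lastCases ?_ (fun c => ?_) i
        · simpa only [Fin.snoc_last] using h1.2
        · simpa only [Fin.snoc_castSucc] using (h2 c).2
    · rintro ⟨h1, h2⟩
      refine ⟨⟨by simpa only [Fin.snoc_last] using h1 (Fin.last m), by simpa only [Fin.snoc_last] using h2 (Fin.last m)⟩, fun c => ?_⟩
      exact ⟨by simpa only [Fin.snoc_castSucc] using h1 (Fin.castSucc c), by simpa only [Fin.snoc_castSucc] using h2 (Fin.castSucc c)⟩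
  rw [h1, (PiLp.volume_preserving_ofLp (Fin (m + 1))).measure_preimage
    measurableSet_Icc.nullMeasurableSet, Real.volume_Icc_pi, Fin.prod_univ_castSucc]
  simp only [Fin.snoc_castSucc, Fin.snoc_last, Finset.prod_const, Finset.card_univ,
    Fintype.card_fin]
  rw [← ENNReal.ofReal_pow (by linarith only [hr]), ← ENNReal.ofReal_mul (by
    have : 0 ≤ r - -r := by linarith only [hr]
    (clear * - this; positivity))]
  congr 1
  ring

/-- lower bound for the volume of a tube -/
theorem volume_tube_ge {δ : ℝ} (hδ : 0 < δ) (a e : EuclideanSpace ℝ (Fin (m + 1)))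
    (he : ‖e‖ = 1) :
    ENNReal.ofReal ((2 / (m + 1)) ^ m * δ ^ m) ≤ volume (tube δ a e) := by
  set e0 : EuclideanSpace ℝ (Fin (m + 1)) := EuclideanSpace.single (Fin.last m) 1 with he0
  have hn0 : ‖e0‖ = 1 := by simp only [he0, PiLp.norm_single, norm_one]
  set ρ : EuclideanSpace ℝ (Fin (m + 1)) ≃ₗᵢ[ℝ] EuclideanSpace ℝ (Fin (m + 1)) :=
    Submodule.reflection (Submodule.span ℝ {e0 - e})ᗮ with hρ
  have hρe : ρ e0 = e := Submodule.reflection_sub (by rw [hn0, he])
  set Bx : Set (EuclideanSpace ℝ (Fin (m + 1))) := {z | |z.ofLp (Fin.last m)| ≤ 1 / 2 ∧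
      ∀ c : Fin m, |z.ofLp (Fin.castSucc c)| ≤ δ / (m + 1)} with hBx
  have hsub : Bx ⊆ (fun z => a + ρ z) ⁻¹' tube δ a e := by
    intro z hz
    obtain ⟨hz1, hz2⟩ := hz
    set z' : EuclideanSpace ℝ (Fin (m + 1)) := z - (z.ofLp (Fin.last m)) • e0 with hz'
    have hz'l : z'.ofLp (Fin.last m) = 0 := by simp [hz', he0]
    have hz'c : ∀ c : Fin m, z'.ofLp (Fin.castSucc c) = z.ofLp (Fin.castSucc c) := by
      intro c
      simp [hz', he0, Fin.castSucc_ne_last]
    refine ⟨z.ofLp (Fin.last m), ρ z', hz1, ?_, ?_, ?_⟩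
    · rw [← hρe, LinearIsometryEquiv.inner_map_map, he0, EuclideanSpace.inner_single_right, hz'l]
      simp
    · rw [LinearIsometryEquiv.norm_map, EuclideanSpace.norm_eq, Fin.sum_univ_castSucc]
      simp only [hz'l, hz'c, norm_zero, Real.norm_eq_abs]
      have h1 : ∑ c : Fin m, |z.ofLp (Fin.castSucc c)| ^ 2 + 0 ^ 2 ≤ δ ^ 2 := by
        have h2 : ∀ c ∈ (Finset.univ : Finset (Fin m)), |z.ofLp (Fin.castSucc c)| ^ 2 ≤
            (δ / (m + 1)) ^ 2 := fun c _ => pow_le_pow_left₀ (abs_nonneg _) (hz2 c) 2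
        have h3 := Finset.sum_le_sum h2
        rw [Finset.sum_const, Finset.card_univ, Fintype.card_fin, nsmul_eq_mul] at h3
        have h4 : (m : ℝ) * (δ / (m + 1)) ^ 2 ≤ δ ^ 2 := by
          rw [div_pow, mul_div_assoc', div_le_iff₀ (by positivity)]
          have h5 : (m : ℝ) ≤ (m + 1) ^ 2 := by
            have h7 : (0 : ℝ) ≤ m := Nat.cast_nonneg m
            linarith only [sq_nonneg (m : ℝ)]
          have h6 : 0 ≤ δ ^ 2 := sq_nonneg δ
          rw [mul_comm]
          exact mul_le_mul_of_nonneg_left h5 h6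
        rw [zero_pow two_ne_zero, add_zero]
        exact h3.trans h4
      exact Real.sqrt_le_iff.2 ⟨hδ.le, h1⟩
    · have : z = (z.ofLp (Fin.last m)) • e0 + z' := by rw [hz']; abel
      conv_lhs => rw [this]
      simp only [map_add, map_smul, hρe]
      abel
  have hmp : MeasurePreserving (fun z : EuclideanSpace ℝ (Fin (m + 1)) => a + ρ z) :=
    (measurePreserving_add_left volume a).comp ρ.measurePreserving
  have hemb : MeasurableEmbedding (fun z : EuclideanSpace ℝ (Fin (m + 1)) => a + ρ z) :=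
    (measurableEmbedding_addLeft a).comp ρ.toHomeomorph.measurableEmbedding
  rw [← hmp.measure_preimage_emb hemb]
  refine le_trans (le_of_eq ?_) (measure_mono hsub)
  rw [hBx, volume_box _ _ (by norm_num) (by positivity)]
  congr 1
  rw [← mul_pow]
  ring_nf

lemma norm_dirvec (v : Fin m → ℝ) : 1 ≤ ‖pt (0 : Fin m → ℝ) v 1‖ := by
  have h := PiLp.norm_apply_le (pt (0 : Fin m → ℝ) v 1) (Fin.last m)
  rw [pt_last] at h
  simpa only [ge_iff_le, norm_one] using h

lemma norm_dir (v : Fin m → ℝ) : ‖dir v‖ = 1 := by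
  have h := norm_dirvec v
  unfold dir
  rw [norm_smul, norm_inv, norm_norm, inv_mul_cancel₀ (by linarith only [h])]

/-- a point of a tube is close to the central line -/
theorem tube_near {δ : ℝ} {a : EuclideanSpace ℝ (Fin (m + 1))} {v : Fin m → ℝ}
    (hv : ∀ i, |v i| ≤ 1) {z : EuclideanSpace ℝ (Fin (m + 1))} (hz : z ∈ tube δ a (dir v)) :
    |z.ofLp (Fin.last m) - a.ofLp (Fin.last m)| ≤ 1 / 2 + δ ∧
    ∀ c : Fin m, |z.ofLp (Fin.castSucc c) - ((a.ofLp (Fin.castSucc c) -
      a.ofLp (Fin.last m) * v c) + z.ofLp (Fin.last m) * v c)| ≤ 2 * δ := by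
  obtain ⟨t, u, ht, _, hu, rfl⟩ := hz
  set η : ℝ := ‖pt (0 : Fin m → ℝ) v 1‖⁻¹ with hη
  have hη0 : 0 ≤ η := by (clear * -; positivity)
  have hη1 : η ≤ 1 := inv_le_one_of_one_le₀ (norm_dirvec v)
  have hl : (dir v).ofLp (Fin.last m) = η := by
    simp only [dir, PiLp.smul_apply, pt_last, smul_eq_mul, mul_one, hη]
  have hc : ∀ c : Fin m, (dir v).ofLp (Fin.castSucc c) = η * v c := by
    intro c
    simp only [dir, PiLp.smul_apply, pt_castSucc, Pi.zero_apply, one_mul, zero_add, smul_eq_mul, hη]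
  have huc : ∀ i, |u.ofLp i| ≤ δ := fun i => by
    have := PiLp.norm_apply_le u i
    rw [Real.norm_eq_abs] at this
    linarith only [hu, this]
  constructor
  · simp only [PiLp.add_apply, PiLp.smul_apply, hl, smul_eq_mul]
    have e1 : a.ofLp (Fin.last m) + t * η + u.ofLp (Fin.last m) - a.ofLp (Fin.last m) =
        t * η + u.ofLp (Fin.last m) := by ring
    rw [e1]
    refine (abs_add_le _ _).trans (add_le_add ?_ (huc _))
    rw [abs_mul, abs_of_nonneg hη0]
    exact (mul_le_of_le_one_right (abs_nonneg t) hη1).trans ht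
  · intro c
    simp only [PiLp.add_apply, PiLp.smul_apply, smul_eq_mul, hl, hc]
    have e1 : a.ofLp (Fin.castSucc c) + t * (η * v c) + u.ofLp (Fin.castSucc c) -
        ((a.ofLp (Fin.castSucc c) - a.ofLp (Fin.last m) * v c) +
          (a.ofLp (Fin.last m) + t * η + u.ofLp (Fin.last m)) * v c) =
        u.ofLp (Fin.castSucc c) - u.ofLp (Fin.last m) * v c := by ring
    rw [e1]
    refine (abs_sub _ _).trans ?_
    have h1 := huc (Fin.castSucc c)
    have h2 : |u.ofLp (Fin.last m) * v c| ≤ δ := by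
      rw [abs_mul]
      exact (mul_le_of_le_one_right (abs_nonneg _) (hv c)).trans (huc (Fin.last m))
    linarith only [h1, h2]

/-- the cell of a point at the scale `2^{-L}` -/
noncomputable def cub (L : ℕ) (x : EuclideanSpace ℝ (Fin (m + 1))) : (Fin m → ℤ) × ℤ :=
  (fun i => ⌊(2 : ℝ) ^ L * x.ofLp (Fin.castSucc i)⌋, ⌊(2 : ℝ) ^ L * x.ofLp (Fin.last m)⌋)

lemma measurable_cub (L : ℕ) : Measurable (cub (m := m) L) := by
  refine Measurable.prodMk (measurable_pi_lambda _ fun i => ?_) ?_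
  · exact ((measurable_coord _).const_mul _).floor
  · exact ((measurable_coord _).const_mul _).floor

/-- the volume of a cell -/
lemma volume_cub (L : ℕ) (w : (Fin m → ℤ) × ℤ) :
    volume (cub L ⁻¹' {w}) ≤ ENNReal.ofReal ((1 / 2 ^ L) ^ (m + 1)) := by
  have h1 : cub L ⁻¹' {w} = (fun z : EuclideanSpace ℝ (Fin (m + 1)) => z.ofLp) ⁻¹'
      cubez ((2 : ℝ) ^ L) (Fin.snoc (α := fun _ => ℤ) w.1 w.2) := by
    ext x
    simp only [Set.mem_preimage, Set.mem_singleton_iff, cub, cubez, Set.mem_ofPred_eq]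
    constructor
    · rintro rfl i
      refine Fin.lastCases ?_ (fun c => ?_) i
      · rw [Fin.snoc_last]
      · rw [Fin.snoc_castSucc]
    · intro h
      refine Prod.ext (funext fun i => ?_) ?_
      · have := h (Fin.castSucc i)
        rwa [Fin.snoc_castSucc] at this
      · have := h (Fin.last m)
        rwa [Fin.snoc_last] at this
  have h2 : MeasurableSet (cubez ((2 : ℝ) ^ L) (Fin.snoc (α := fun _ => ℤ) w.1 w.2 :
      Fin (m + 1) → ℤ)) := by
    have : cubez ((2 : ℝ) ^ L) (Fin.snoc (α := fun _ => ℤ) w.1 w.2 : Fin (m + 1) → ℤ) =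
        ⋂ i, {v : Fin (m + 1) → ℝ | ⌊(2 : ℝ) ^ L * v i⌋ =
          (Fin.snoc (α := fun _ => ℤ) w.1 w.2 : Fin (m + 1) → ℤ) i} := by
      ext v
      simp [cubez]
    rw [this]
    refine MeasurableSet.iInter fun i => ?_
    have hm : Measurable fun v : Fin (m + 1) → ℝ => ⌊(2 : ℝ) ^ L * v i⌋ :=
      ((measurable_pi_apply i).const_mul _).floor
    exact hm (measurableSet_singleton _)
  rw [h1, (PiLp.volume_preserving_ofLp (Fin (m + 1))).measure_preimage h2.nullMeasurableSet]
  exact volume_cubez _ (by positivity) _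

/-- Hoelder's inequality on a set -/
lemma setLIntegral_pow_le {α : Type*} [MeasurableSpace α] (μ : Measure α) (s : Set α)
    {g : α → ENNReal} (hg : Measurable g) (n : ℕ) :
    (∫⁻ x in s, g x ∂μ) ^ (n + 1) ≤ μ s ^ n * ∫⁻ x in s, g x ^ (n + 1) ∂μ := by
  rcases Nat.eq_zero_or_pos n with rfl | hn
  · simp
  have hn' : (0 : ℝ) < n := by exact_mod_cast hn
  have hpq : Real.HolderConjugate ((n : ℝ) + 1) (((n : ℝ) + 1) / n) := by
    rw [Real.holderConjugate_iff]
    refine ⟨by linarith, ?_⟩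
    field_simp
    ring
  have h1 := ENNReal.lintegral_mul_le_Lp_mul_Lq (μ.restrict s) hpq hg.aemeasurable
    (aemeasurable_const (b := (1 : ENNReal)))
  simp only [Pi.mul_apply, mul_one, ENNReal.one_rpow, lintegral_const, one_mul,
    Measure.restrict_apply MeasurableSet.univ, Set.univ_inter] at h1
  have h2 := pow_le_pow_left' h1 (n + 1)
  refine h2.trans (le_of_eq ?_)
  rw [mul_pow, mul_comm]
  congr 1
  · rw [← ENNReal.rpow_natCast, ← ENNReal.rpow_natCast, ← ENNReal.rpow_mul]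
    congr 1
    push_cast
    field_simp
  · rw [← ENNReal.rpow_natCast, ← ENNReal.rpow_mul]
    have : (1 / ((n : ℝ) + 1)) * ((n + 1 : ℕ) : ℝ) = 1 := by
      push_cast
      field_simp
    rw [this, ENNReal.rpow_one]
    refine lintegral_congr fun x => ?_
    rw [← ENNReal.rpow_natCast]
    push_cast
    rfl

/-- the averages over the cells -/
noncomputable def cavg (L : ℕ) (g : EuclideanSpace ℝ (Fin (m + 1)) → ENNReal)
    (w : (Fin m → ℤ) × ℤ) : ENNReal :=
  2 ^ ((m + 1) * L) * ∫⁻ x in cub L ⁻¹' {w}, g x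

/-- the averages have a smaller norm -/
lemma tsum_cavg_le (L : ℕ) {g : EuclideanSpace ℝ (Fin (m + 1)) → ENNReal} (hg : Measurable g) :
    ∑' w, cavg L g w ^ (m + 1) ≤ 2 ^ ((m + 1) * L) * ∫⁻ x, g x ^ (m + 1) := by
  have h1 : ∀ w, cavg L g w ^ (m + 1) ≤
      2 ^ ((m + 1) * L) * ∫⁻ x in cub L ⁻¹' {w}, g x ^ (m + 1) := by
    intro w
    have h2 := setLIntegral_pow_le volume (cub L ⁻¹' {w}) hg m
    have h3 : (2 : ENNReal) ^ ((m + 1) * L * m) * volume (cub L ⁻¹' {w}) ^ m ≤ 1 := by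
      refine (mul_le_mul_right (pow_le_pow_left' (volume_cub L w) m) _).trans (le_of_eq ?_)
      rw [show (2 : ENNReal) = ENNReal.ofReal 2 by norm_num, ← ENNReal.ofReal_pow (by norm_num),
        ← ENNReal.ofReal_pow (by positivity), ← ENNReal.ofReal_mul (by positivity)]
      rw [← ENNReal.ofReal_one]
      congr 1
      rw [one_div, inv_pow, inv_pow, ← pow_mul, ← pow_mul]
      rw [show (m + 1) * L * m = L * ((m + 1) * m) by ring]
      exact mul_inv_cancel₀ (by positivity)
    unfold cavg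
    rw [mul_pow]
    calc _ ≤ ((2 : ENNReal) ^ ((m + 1) * L)) ^ (m + 1) *
          (volume (cub L ⁻¹' {w}) ^ m * ∫⁻ x in cub L ⁻¹' {w}, g x ^ (m + 1)) :=
          mul_le_mul_right h2 _
      _ = ((2 : ENNReal) ^ ((m + 1) * L * m) * volume (cub L ⁻¹' {w}) ^ m) *
          (2 ^ ((m + 1) * L) * ∫⁻ x in cub L ⁻¹' {w}, g x ^ (m + 1)) := by
          rw [pow_succ, pow_mul (2 : ENNReal) ((m + 1) * L) m]
          ring
      _ ≤ 1 * (2 ^ ((m + 1) * L) * ∫⁻ x in cub L ⁻¹' {w}, g x ^ (m + 1)) :=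
          mul_le_mul_left h3 _
      _ = _ := one_mul _
  refine (ENNReal.tsum_le_tsum h1).trans (le_of_eq ?_)
  rw [ENNReal.tsum_mul_left]
  congr 1
  rw [← lintegral_iUnion]
  · have : (⋃ w, cub (m := m) L ⁻¹' {w}) = Set.univ := by
      ext x
      simp
    rw [this, Measure.restrict_univ]
  · exact fun w => measurable_cub L (measurableSet_singleton w)
  · intro w w' hw
    refine Set.disjoint_left.2 fun x hx hx' => hw ?_
    rw [Set.mem_preimage, Set.mem_singleton_iff] at hx hx'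
    rw [← hx, ← hx']

/-- the sheared function -/
def shear (s : Fin m → ℤ) (F : (Fin m → ℤ) × ℤ → ENNReal) (w : (Fin m → ℤ) × ℤ) : ENNReal :=
  F (fun i => w.1 i + w.2 * s i, w.2)

lemma tsum_shear (s : Fin m → ℤ) (F : (Fin m → ℤ) × ℤ → ENNReal) :
    ∑' w, shear s F w ^ (m + 1) = ∑' w, F w ^ (m + 1) := by
  set e : (Fin m → ℤ) × ℤ ≃ (Fin m → ℤ) × ℤ :=
    { toFun := fun w => (fun i => w.1 i + w.2 * s i, w.2)
      invFun := fun w => (fun i => w.1 i - w.2 * s i, w.2)
      left_inv := fun w => by simp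
      right_inv := fun w => by simp } with he
  exact e.tsum_eq fun w => F w ^ (m + 1)

end Vale.Agent.P127.M3
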