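import Vale.Agent.P127.M3.FrontC

/-!
# P127 / M3 : front end, part D

The average of a function over a tube is bounded by the discrete maximal function.
-/

namespace Vale.Agent.P127.M3

open MeasureTheory Finset

variable {m : ℕ}

lemma setLIntegral_biUnion_le {α ι : Type*} [MeasurableSpace α] (μ : Measure α) (s : Finset ι)
    (A : ι → Set α) (g : α → ENNReal) :
    ∫⁻ x in ⋃ i ∈ s, A i, g x ∂μ ≤ ∑ i ∈ s, ∫⁻ x in A i, g x ∂μ := by
  classical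
  induction s using Finset.induction_on with
  | empty => simp
  | insert a s ha ih =>
    rw [Finset.set_biUnion_insert, sum_insert ha]
    exact (lintegral_union_le _ _ _).trans (add_le_add le_rfl ih)

/-- the digits of a slope -/
noncomputable def ydig (L : ℕ) (Y : Fin m → ℤ) : Fin m → ℤ := fun i => Y i % 2 ^ L

/-- the integer part of a slope -/
noncomputable def sdig (L : ℕ) (Y : Fin m → ℤ) : Fin m → ℤ := fun i => Y i / 2 ^ L

/-- the base point of the segment at the height `h` -/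
noncomputable def xbase (L : ℕ) (a : EuclideanSpace ℝ (Fin (m + 1))) (v : Fin m → ℝ) (h : ℤ) :
    Fin m → ℤ :=
  fun c => ⌊(2 : ℝ) ^ L * (a.ofLp (Fin.castSucc c) - a.ofLp (Fin.last m) * v c + h * v c)⌋

/-- the index set of the cells near a tube -/
noncomputable def cidx (m L : ℕ) : Finset ((ℤ × (Fin m → ℤ)) × ℕ) :=
  (Finset.Icc (-2 : ℤ) 2 ×ˢ Fintype.piFinset fun _ : Fin m => Finset.Icc (-8 : ℤ) 8) ×ˢ
    range (2 ^ L)

/-- the cells near a tube -/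
noncomputable def ccell (L : ℕ) (a : EuclideanSpace ℝ (Fin (m + 1))) (v : Fin m → ℝ)
    (q : (ℤ × (Fin m → ℤ)) × ℕ) : (Fin m → ℤ) × ℤ :=
  (fun c => pos L (xbase L a v (⌊a.ofLp (Fin.last m)⌋ + q.1.1),
      ydig L fun c => ⌊(2 : ℝ) ^ L * v c⌋) q.2 c +
      q.2 * sdig L (fun c => ⌊(2 : ℝ) ^ L * v c⌋) c + q.1.2 c,
    (⌊a.ofLp (Fin.last m)⌋ + q.1.1) * 2 ^ L + q.2)

/-- the bound for one coordinate -/
lemma coord_bound {L t : ℕ} {ac al xc xl v : ℝ} {h : ℤ} (hv : |v| ≤ 1) (ht : (t : ℝ) < 2 ^ L)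
    (hx : h * 2 ^ L + t ≤ 2 ^ L * xl ∧ 2 ^ L * xl < h * 2 ^ L + t + 1)
    (hρ : |(2 : ℝ) ^ L * (xc - ((ac - al * v) + xl * v))| ≤ 4) :
    -8 ≤ ⌊(2 : ℝ) ^ L * xc⌋ - (⌊(2 : ℝ) ^ L * (ac - al * v + h * v)⌋ +
      (t : ℤ) * (⌊(2 : ℝ) ^ L * v⌋ % 2 ^ L) / 2 ^ L + t * (⌊(2 : ℝ) ^ L * v⌋ / 2 ^ L)) ∧
    ⌊(2 : ℝ) ^ L * xc⌋ - (⌊(2 : ℝ) ^ L * (ac - al * v + h * v)⌋ +
      (t : ℤ) * (⌊(2 : ℝ) ^ L * v⌋ % 2 ^ L) / 2 ^ L + t * (⌊(2 : ℝ) ^ L * v⌋ / 2 ^ L)) ≤ 8 := by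
  have hp : (0 : ℤ) < 2 ^ L := by positivity
  have hpr : (0 : ℝ) < 2 ^ L := by positivity
  have e1 := Int.floor_le ((2 : ℝ) ^ L * xc)
  have e2 := Int.lt_floor_add_one ((2 : ℝ) ^ L * xc)
  have e3 := Int.floor_le ((2 : ℝ) ^ L * (ac - al * v + h * v))
  have e4 := Int.lt_floor_add_one ((2 : ℝ) ^ L * (ac - al * v + h * v))
  have e5 := Int.floor_le ((2 : ℝ) ^ L * v)
  have e6 := Int.lt_floor_add_one ((2 : ℝ) ^ L * v)
  set A : ℤ := ⌊(2 : ℝ) ^ L * xc⌋ with hA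
  set B : ℤ := ⌊(2 : ℝ) ^ L * (ac - al * v + h * v)⌋ with hB
  set Y : ℤ := ⌊(2 : ℝ) ^ L * v⌋ with hY
  set y : ℤ := Y % 2 ^ L with hy
  set s : ℤ := Y / 2 ^ L with hs
  set D : ℤ := (t : ℤ) * y / 2 ^ L with hD
  have e7 : (Y : ℝ) = 2 ^ L * s + y := by
    have := Int.emod_add_mul_ediv Y (2 ^ L)
    have h3 : Y = 2 ^ L * s + y := by linarith
    exact_mod_cast h3
  have e8 : (D : ℝ) * 2 ^ L ≤ t * y := by
    have := Int.ediv_mul_le ((t : ℤ) * y) hp.ne'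
    exact_mod_cast this
  have e9 : (t : ℝ) * y < (D + 1) * 2 ^ L := by
    have := Int.lt_ediv_add_one_mul_self ((t : ℤ) * y) hp
    exact_mod_cast this
  clear_value A B Y y s D
  have ht0 : (0 : ℝ) ≤ t := Nat.cast_nonneg t
  set ρ : ℝ := 2 ^ L * (xc - ((ac - al * v) + xl * v)) with hρd
  have r1 := abs_le.1 hρ
  set θ' : ℝ := 2 ^ L * xl - (h * 2 ^ L + t) with hθ'
  have r2 : 0 ≤ θ' ∧ θ' < 1 := ⟨by linarith [hx.1], by linarith [hx.2]⟩
  have r3 : |θ' * v| ≤ 1 := by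
    rw [abs_mul, abs_of_nonneg r2.1]
    nlinarith [abs_nonneg v, r2.1, r2.2]
  have r3' := abs_le.1 r3
  set θ : ℝ := 2 ^ L * v - Y with hθ
  have r4 : 0 ≤ θ ∧ θ < 1 := ⟨by linarith, by linarith⟩
  have r5 : 0 ≤ t * θ / 2 ^ L ∧ t * θ / 2 ^ L ≤ 1 := by
    constructor
    · exact div_nonneg (mul_nonneg ht0 r4.1) hpr.le
    · rw [div_le_one hpr]
      nlinarith [r4.1, r4.2]
  have e8' : (D : ℝ) ≤ t * y / 2 ^ L := by
    rw [le_div_iff₀ hpr]
    exact e8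
  have e9' : (t : ℝ) * y / 2 ^ L < D + 1 := by
    rw [div_lt_iff₀ hpr]
    exact e9
  have q2 : (t : ℝ) * v = t * s + t * y / 2 ^ L + t * θ / 2 ^ L := by
    have q3 : v = s + y / 2 ^ L + θ / 2 ^ L := by
      have : 2 ^ L * v = 2 ^ L * s + y + θ := by rw [← e7, hθ]; ring
      field_simp
      linarith
    calc (t : ℝ) * v = t * (s + y / 2 ^ L + θ / 2 ^ L) := by rw [← q3]
      _ = _ := by ring
  have main : (2 : ℝ) ^ L * xc = 2 ^ L * (ac - al * v + h * v) +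
      (t * s + t * y / 2 ^ L + t * θ / 2 ^ L) + θ' * v + ρ := by
    rw [← q2, hρd, hθ']
    ring
  clear_value ρ θ' θ
  constructor
  · have : ((-9 : ℤ) : ℝ) < ((A - (B + D + t * s) : ℤ) : ℝ) := by
      push_cast
      linarith [r1.1, r3'.1, r5.1]
    have := Int.cast_lt.1 this
    omega
  · have : ((A - (B + D + t * s) : ℤ) : ℝ) < ((9 : ℤ) : ℝ) := by
      push_cast
      linarith [r1.2, r3'.2, r5.2]
    have := Int.cast_lt.1 this
    omega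

/-- the tube is covered by the cells -/
lemma tube_cover {L : ℕ} {δ : ℝ} (hδ1 : δ ≤ 1) (hδ : δ * 2 ^ L ≤ 2)
    (a : EuclideanSpace ℝ (Fin (m + 1))) {v : Fin m → ℝ} (hv : ∀ i, |v i| ≤ 1) :
    tube δ a (dir v) ⊆ ⋃ q ∈ cidx m L, cub L ⁻¹' {ccell L a v q} := by
  intro x hx
  obtain ⟨h1, h2⟩ := tube_near hv hx
  have hp : (0 : ℤ) < 2 ^ L := by positivity
  have hpr : (0 : ℝ) < 2 ^ L := by positivity
  set τ : ℤ := ⌊(2 : ℝ) ^ L * x.ofLp (Fin.last m)⌋ with hτ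
  set h : ℤ := τ / 2 ^ L with hh
  set t : ℕ := (τ % 2 ^ L).toNat with ht
  have ht0 := Int.emod_nonneg τ hp.ne'
  have ht1 := Int.emod_lt_of_pos τ hp
  have htc : (t : ℤ) = τ % 2 ^ L := Int.toNat_of_nonneg ht0
  have hdiv : τ = h * 2 ^ L + t := by
    rw [htc, hh]
    have := Int.emod_add_mul_ediv τ (2 ^ L)
    linarith
  have htL : t < 2 ^ L := by
    have : (t : ℤ) < 2 ^ L := by rw [htc]; exact ht1
    exact_mod_cast this
  have htr : (t : ℝ) < 2 ^ L := by exact_mod_cast htL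
  have hdivr : (τ : ℝ) = h * 2 ^ L + t := by exact_mod_cast hdiv
  have hτ1 : (τ : ℝ) ≤ 2 ^ L * x.ofLp (Fin.last m) := Int.floor_le _
  have hτ2 : 2 ^ L * x.ofLp (Fin.last m) < (τ : ℝ) + 1 := Int.lt_floor_add_one _
  have hx1 : (h : ℝ) ≤ x.ofLp (Fin.last m) := by
    have : 2 ^ L * (h : ℝ) ≤ 2 ^ L * x.ofLp (Fin.last m) := by
      have : (0 : ℝ) ≤ t := Nat.cast_nonneg t
      linarith
    exact le_of_mul_le_mul_left this hpr
  have hx2 : x.ofLp (Fin.last m) < (h : ℝ) + 1 := by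
    have h3 : (t : ℝ) + 1 ≤ 2 ^ L := by exact_mod_cast htL
    have : 2 ^ L * x.ofLp (Fin.last m) < 2 ^ L * ((h : ℝ) + 1) := by linarith
    exact lt_of_mul_lt_mul_left this hpr.le
  have ha1 := Int.floor_le (a.ofLp (Fin.last m))
  have ha2 := Int.lt_floor_add_one (a.ofLp (Fin.last m))
  have h1' := abs_le.1 h1
  have hj1 : (-2 : ℤ) ≤ h - ⌊a.ofLp (Fin.last m)⌋ := by
    have : ((-3 : ℤ) : ℝ) < ((h - ⌊a.ofLp (Fin.last m)⌋ : ℤ) : ℝ) := by
      push_cast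
      linarith
    have := Int.cast_lt.1 this
    omega
  have hj2 : h - ⌊a.ofLp (Fin.last m)⌋ ≤ 2 := by
    have : ((h - ⌊a.ofLp (Fin.last m)⌋ : ℤ) : ℝ) < ((3 : ℤ) : ℝ) := by
      push_cast
      linarith
    have := Int.cast_lt.1 this
    omega
  set Y : Fin m → ℤ := fun c => ⌊(2 : ℝ) ^ L * v c⌋ with hY
  set w : Fin m → ℤ := fun c => ⌊(2 : ℝ) ^ L * x.ofLp (Fin.castSucc c)⌋ -
    (pos L (xbase L a v h, ydig L Y) t c + t * sdig L Y c) with hw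
  have hwb : ∀ c, -8 ≤ w c ∧ w c ≤ 8 := by
    intro c
    have := coord_bound (L := L) (t := t) (ac := a.ofLp (Fin.castSucc c))
      (al := a.ofLp (Fin.last m)) (xc := x.ofLp (Fin.castSucc c)) (xl := x.ofLp (Fin.last m))
      (v := v c) (h := h) (hv c) htr ⟨by linarith, by linarith⟩ (by
        rw [abs_mul, abs_of_pos hpr]
        have := mul_le_mul_of_nonneg_left (h2 c) hpr.le
        linarith)
    exact this
  refine Set.mem_iUnion₂.2 ⟨((h - ⌊a.ofLp (Fin.last m)⌋, w), t), ?_, ?_⟩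
  · unfold cidx
    simp only [mem_product, Fintype.mem_piFinset, mem_Icc, mem_range]
    exact ⟨⟨⟨hj1, hj2⟩, hwb⟩, htL⟩
  · rw [Set.mem_preimage, Set.mem_singleton_iff]
    unfold ccell cub
    have e0 : ⌊a.ofLp (Fin.last m)⌋ + (h - ⌊a.ofLp (Fin.last m)⌋) = h := by ring
    simp only [e0]
    refine Prod.ext (funext fun c => ?_) ?_
    · simp only [hw]
      ring
    · exact hdiv

/-- the bound for the integral over a tube -/
lemma lintegral_tube_le {L : ℕ} {δ : ℝ} (hδ1 : δ ≤ 1) (hδ : δ * 2 ^ L ≤ 2)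
    (a : EuclideanSpace ℝ (Fin (m + 1))) {v : Fin m → ℝ} (hv : ∀ i, |v i| ≤ 1)
    (g : EuclideanSpace ℝ (Fin (m + 1)) → ENNReal) :
    2 ^ ((m + 1) * L) * ∫⁻ x in tube δ a (dir v), g x ≤
      5 * 17 ^ m * dmax L (shear (sdig L fun c => ⌊(2 : ℝ) ^ L * v c⌋) (cavg L g))
        (ydig L fun c => ⌊(2 : ℝ) ^ L * v c⌋) := by
  classical
  set Y : Fin m → ℤ := fun c => ⌊(2 : ℝ) ^ L * v c⌋ with hY
  have h1 : ∫⁻ x in tube δ a (dir v), g x ≤
      ∑ q ∈ cidx m L, ∫⁻ x in cub L ⁻¹' {ccell L a v q}, g x :=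
    (lintegral_mono_set (tube_cover hδ1 hδ a hv)).trans (setLIntegral_biUnion_le _ _ _ _)
  refine (mul_le_mul_right h1 _).trans ?_
  rw [mul_sum]
  change ∑ q ∈ cidx m L, cavg L g (ccell L a v q) ≤ _
  unfold cidx
  rw [sum_product]
  have h2 : ∀ p ∈ (Finset.Icc (-2 : ℤ) 2 ×ˢ
      Fintype.piFinset fun _ : Fin m => Finset.Icc (-8 : ℤ) 8),
      ∑ t ∈ range (2 ^ L), cavg L g (ccell L a v (p, t)) ≤
        dmax L (shear (sdig L Y) (cavg L g)) (ydig L Y) := by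
    intro p _
    set h : ℤ := ⌊a.ofLp (Fin.last m)⌋ + p.1 with hh
    refine le_trans (le_of_eq ?_) (le_iSup₂ (f := fun (X : Fin m → ℤ) (h : ℤ) =>
      ∑ t ∈ range (2 ^ L), shear (sdig L Y) (cavg L g) (pos L (X, ydig L Y) t, h * 2 ^ L + t))
      (fun c => xbase L a v h c + p.2 c - h * 2 ^ L * sdig L Y c) h)
    refine sum_congr rfl fun t _ => ?_
    unfold shear ccell
    congr 1
    refine Prod.ext (funext fun c => ?_) rfl
    simp only [pos]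
    ring
  refine (sum_le_sum h2).trans (le_of_eq ?_)
  rw [sum_const, nsmul_eq_mul, card_product, Fintype.card_piFinset]
  simp

/-- the bound for the maximal function -/
lemma kakeyaMax_le {L : ℕ} {δ : ℝ} (hδ1 : δ ≤ 1) (hδ : δ * 2 ^ L ≤ 2) (hδ2 : 1 ≤ δ * 2 ^ L)
    {v : Fin m → ℝ} (hv : ∀ i, |v i| ≤ 1) (g : EuclideanSpace ℝ (Fin (m + 1)) → ENNReal) :
    kakeyaMax δ g (dir v) ≤ ENNReal.ofReal (5 * 17 ^ m * ((m + 1) / 2) ^ m / 2 ^ L) *
      dmax L (shear (sdig L fun c => ⌊(2 : ℝ) ^ L * v c⌋) (cavg L g))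
        (ydig L fun c => ⌊(2 : ℝ) ^ L * v c⌋) := by
  have hpr : (0 : ℝ) < 2 ^ L := by positivity
  have hδ0 : 0 < δ := by
    by_contra h
    push Not at h
    nlinarith
  refine iSup_le fun a => ?_
  refine ENNReal.div_le_of_le_mul ?_
  set D := dmax L (shear (sdig L fun c => ⌊(2 : ℝ) ^ L * v c⌋) (cavg L g))
        (ydig L fun c => ⌊(2 : ℝ) ^ L * v c⌋) with hD
  have h1 := lintegral_tube_le hδ1 hδ a hv g
  rw [← hD] at h1
  have h2 := volume_tube_ge hδ0 a (dir v) (norm_dir v)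
  have h3 : ENNReal.ofReal (5 * 17 ^ m / 2 ^ ((m + 1) * L)) ≤
      ENNReal.ofReal (5 * 17 ^ m * ((m + 1) / 2) ^ m / 2 ^ L) * volume (tube δ a (dir v)) := by
    refine le_trans ?_ (mul_le_mul_right h2 _)
    rw [← ENNReal.ofReal_mul (by positivity)]
    refine ENNReal.ofReal_le_ofReal ?_
    have e1 : (1 / 2 ^ L : ℝ) ^ m ≤ δ ^ m := by
      refine pow_le_pow_left₀ (by positivity) ?_ m
      rw [div_le_iff₀ hpr]
      exact hδ2
    have e2 : ((m + 1) / 2 : ℝ) ^ m * (2 / (m + 1)) ^ m = 1 := by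
      rw [← mul_pow]
      have : ((m : ℝ) + 1) / 2 * (2 / (m + 1)) = 1 := by
        field_simp
      rw [this, one_pow]
    calc (5 * 17 ^ m / 2 ^ ((m + 1) * L) : ℝ) =
          5 * 17 ^ m * (((m + 1) / 2) ^ m * (2 / (m + 1)) ^ m) / 2 ^ L * (1 / 2 ^ L) ^ m := by
          rw [e2, one_div, inv_pow, ← pow_mul, add_mul, one_mul, pow_add, mul_comm L m]
          field_simp
      _ ≤ 5 * 17 ^ m * (((m + 1) / 2) ^ m * (2 / (m + 1)) ^ m) / 2 ^ L * δ ^ m :=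
          mul_le_mul_of_nonneg_left e1 (by positivity)
      _ = _ := by ring
  have h4 : ∫⁻ x in tube δ a (dir v), g x =
      ENNReal.ofReal (1 / 2 ^ ((m + 1) * L)) *
        (2 ^ ((m + 1) * L) * ∫⁻ x in tube δ a (dir v), g x) := by
    rw [← mul_assoc]
    have : ENNReal.ofReal (1 / 2 ^ ((m + 1) * L)) * 2 ^ ((m + 1) * L) = 1 := by
      rw [show (2 : ENNReal) = ENNReal.ofReal 2 by norm_num, ← ENNReal.ofReal_pow (by norm_num),
        ← ENNReal.ofReal_mul (by positivity), ← ENNReal.ofReal_one]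
      congr 1
      field_simp
    rw [this, one_mul]
  rw [h4]
  calc _ ≤ ENNReal.ofReal (1 / 2 ^ ((m + 1) * L)) * (5 * 17 ^ m * D) := mul_le_mul_right h1 _
    _ = ENNReal.ofReal (5 * 17 ^ m / 2 ^ ((m + 1) * L)) * D := by
        have : (5 * 17 ^ m : ENNReal) = ENNReal.ofReal (5 * 17 ^ m) := by
          rw [ENNReal.ofReal_mul (by norm_num), ENNReal.ofReal_pow (by norm_num)]
          norm_num
        rw [this, ← mul_assoc, ← ENNReal.ofReal_mul (by positivity)]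
        congr 2
        ring
    _ ≤ (ENNReal.ofReal (5 * 17 ^ m * ((m + 1) / 2) ^ m / 2 ^ L) *
          volume (tube δ a (dir v))) * D := mul_le_mul_left h3 _
    _ = _ := by ring

end Vale.Agent.P127.M3
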