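import Vale.Agent.P127.M3.FrontD

/-!
# P127 / M3 : front end, part E

The maximal inequality on the sphere from the combinatorial estimate.
-/

namespace Vale.Agent.P127.M3

open MeasureTheory Finset

variable {m : ℕ}

/-- the bound for the maximal function in a cell of slopes -/
noncomputable def Phi (L : ℕ) (g : EuclideanSpace ℝ (Fin (m + 1)) → ENNReal) (Y : Fin m → ℤ) :
    ENNReal :=
  if Y ∈ (Fintype.piFinset fun _ : Fin m => Finset.Icc (-2 ^ L : ℤ) (2 ^ L)) then
    ENNReal.ofReal (5 * 17 ^ m * ((m + 1) / 2) ^ m / 2 ^ L) *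
      dmax L (shear (sdig L Y) (cavg L g)) (ydig L Y)
  else 0

/-- the digits of a slope -/
noncomputable def Yfl (L : ℕ) (v : Fin m → ℝ) : Fin m → ℤ := fun c => ⌊(2 : ℝ) ^ L * v c⌋

lemma measurable_Yfl (L : ℕ) : Measurable (Yfl (m := m) L) :=
  measurable_pi_lambda _ fun i => ((measurable_pi_apply i).const_mul _).floor

lemma measurable_PhiY (L : ℕ) (g : EuclideanSpace ℝ (Fin (m + 1)) → ENNReal) :
    Measurable fun v : Fin m → ℝ => Phi L g (Yfl L v) :=
  (measurable_of_countable (Phi L g)).comp (measurable_Yfl L)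

lemma kakeyaMax_le_Phi {L : ℕ} {δ : ℝ} (hδ1 : δ ≤ 1) (hδ : δ * 2 ^ L ≤ 2) (hδ2 : 1 ≤ δ * 2 ^ L)
    {v : Fin m → ℝ} (hv : ∀ i, |v i| ≤ 1) (g : EuclideanSpace ℝ (Fin (m + 1)) → ENNReal) :
    kakeyaMax δ g (dir v) ≤ Phi L g (Yfl L v) := by
  have h1 : Yfl L v ∈ (Fintype.piFinset fun _ : Fin m => Finset.Icc (-2 ^ L : ℤ) (2 ^ L)) := by
    rw [Fintype.mem_piFinset]
    intro i
    have hp : (0 : ℝ) < 2 ^ L := by positivity
    have h2 := abs_le.1 (hv i)
    rw [mem_Icc]
    unfold Yfl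
    constructor
    · rw [Int.le_floor]
      push_cast
      nlinarith
    · have : ⌊(2 : ℝ) ^ L * v i⌋ ≤ ⌊(((2 : ℤ) ^ L : ℤ) : ℝ)⌋ := by
        refine Int.floor_le_floor ?_
        push_cast
        nlinarith
      rwa [Int.floor_intCast] at this
  unfold Phi
  rw [if_pos h1]
  exact kakeyaMax_le hδ1 hδ hδ2 hv g

lemma tsum_Phi_le {L : ℕ} {A : ENNReal}
    (H : ∀ F : (Fin m → ℤ) × ℤ → ENNReal,
      ∑ y ∈ Ybox m L, dmax L F y ^ (m + 1) ≤ A * ∑' w, F w ^ (m + 1))
    {g : EuclideanSpace ℝ (Fin (m + 1)) → ENNReal} (hg : Measurable g) :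
    ∑' Y, Phi L g Y ^ (m + 1) ≤
      3 ^ m * (ENNReal.ofReal (5 * 17 ^ m * ((m + 1) / 2) ^ m / 2 ^ L) ^ (m + 1) *
        (A * (2 ^ ((m + 1) * L) * ∫⁻ x, g x ^ (m + 1)))) := by
  classical
  have hp : (0 : ℤ) < 2 ^ L := by positivity
  set K := ENNReal.ofReal (5 * 17 ^ m * ((m + 1) / 2) ^ m / 2 ^ L) with hK
  set box : Finset (Fin m → ℤ) :=
    Fintype.piFinset fun _ : Fin m => Finset.Icc (-2 ^ L : ℤ) (2 ^ L) with hbox
  set S : Finset (Fin m → ℤ) := Fintype.piFinset fun _ : Fin m => Finset.Icc (-1 : ℤ) 1 with hS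
  have hcard : (#S : ENNReal) = 3 ^ m := by
    rw [hS, Fintype.card_piFinset]
    simp
  rw [tsum_eq_sum (s := box) (fun Y hY => by
    unfold Phi
    rw [if_neg hY]
    exact zero_pow (Nat.succ_ne_zero m))]
  have hinj : Function.Injective fun Y : Fin m → ℤ => (sdig L Y, ydig L Y) := by
    intro Y Y' he
    rw [Prod.mk.injEq] at he
    funext i
    have h1 := congrFun he.1 i
    have h2 := congrFun he.2 i
    unfold sdig at h1
    unfold ydig at h2
    have e1 := Int.emod_add_mul_ediv (Y i) (2 ^ L)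
    have e2 := Int.emod_add_mul_ediv (Y' i) (2 ^ L)
    rw [h1, h2] at e1
    rw [← e1, e2]
  have h1 : ∑ Y ∈ box, Phi L g Y ^ (m + 1) =
      ∑ p ∈ box.image (fun Y : Fin m → ℤ => (sdig L Y, ydig L Y)),
        (K * dmax L (shear p.1 (cavg L g)) p.2) ^ (m + 1) := by
    rw [sum_image fun Y _ Y' _ he => hinj he]
    refine sum_congr rfl fun Y hY => ?_
    unfold Phi
    rw [if_pos hY]
  have h2 : box.image (fun Y : Fin m → ℤ => (sdig L Y, ydig L Y)) ⊆ S ×ˢ Ybox m L := by
    intro p hpm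
    obtain ⟨Y, hY, rfl⟩ := mem_image.1 hpm
    rw [hbox, Fintype.mem_piFinset] at hY
    rw [mem_product, mem_Ybox, hS, Fintype.mem_piFinset]
    refine ⟨fun i => ?_, fun i => ⟨Int.emod_nonneg _ hp.ne', Int.emod_lt_of_pos _ hp⟩⟩
    have h3 := mem_Icc.1 (hY i)
    rw [mem_Icc]
    unfold sdig
    constructor
    · rw [Int.le_ediv_iff_mul_le hp]
      linarith [h3.1]
    · have : Y i / 2 ^ L < 2 := by
        rw [Int.ediv_lt_iff_lt_mul hp]
        linarith [h3.2]
      exact Int.lt_add_one_iff.1 this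
  rw [h1]
  calc _ ≤ ∑ p ∈ S ×ˢ Ybox m L, (K * dmax L (shear p.1 (cavg L g)) p.2) ^ (m + 1) :=
        sum_le_sum_of_subset h2
    _ = ∑ s ∈ S, K ^ (m + 1) * ∑ y ∈ Ybox m L, dmax L (shear s (cavg L g)) y ^ (m + 1) := by
        rw [sum_product]
        refine sum_congr rfl fun s _ => ?_
        rw [mul_sum]
        exact sum_congr rfl fun y _ => mul_pow _ _ _
    _ ≤ ∑ _s ∈ S, K ^ (m + 1) * (A * (2 ^ ((m + 1) * L) * ∫⁻ x, g x ^ (m + 1))) := by
        refine sum_le_sum fun s _ => mul_le_mul_right ?_ _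
        refine (H _).trans ?_
        rw [tsum_shear]
        exact mul_le_mul_right (tsum_cavg_le L hg) _
    _ = _ := by rw [sum_const, nsmul_eq_mul, hcard]

lemma lintegral_Phi_le {L : ℕ} {C ε : ℝ} (hC : 0 < C)
    (H : ∀ F : (Fin m → ℤ) × ℤ → ENNReal,
      ∑ y ∈ Ybox m L, dmax L F y ^ (m + 1) ≤
        ENNReal.ofReal (C * (2 : ℝ) ^ (ε * L) * 2 ^ (m * L)) * ∑' w, F w ^ (m + 1))
    {g : EuclideanSpace ℝ (Fin (m + 1)) → ENNReal} (hg : Measurable g) :
    ∫⁻ v : Fin m → ℝ, Phi L g (Yfl L v) ^ (m + 1) ≤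
      ENNReal.ofReal (3 ^ m * (5 * 17 ^ m * ((m + 1) / 2) ^ m) ^ (m + 1) * C *
        (2 : ℝ) ^ (ε * L)) * ∫⁻ x, g x ^ (m + 1) := by
  have h1 : ∫⁻ v : Fin m → ℝ, Phi L g (Yfl L v) ^ (m + 1) =
      ∑' Y : Fin m → ℤ, Phi L g Y ^ (m + 1) * volume (Yfl L ⁻¹' {Y}) := by
    rw [← lintegral_map (f := fun Y : Fin m → ℤ => Phi L g Y ^ (m + 1))
      (measurable_of_countable _) (measurable_Yfl L), lintegral_countable']
    refine tsum_congr fun Y => ?_
    rw [Measure.map_apply (measurable_Yfl L) (measurableSet_singleton Y)]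
  have h2 : ∀ Y : Fin m → ℤ, volume (Yfl L ⁻¹' {Y}) ≤ ENNReal.ofReal ((1 / 2 ^ L) ^ m) := by
    intro Y
    have h3 : Yfl L ⁻¹' {Y} = cubez ((2 : ℝ) ^ L) Y := by
      ext v
      simp only [Set.mem_preimage, Set.mem_singleton_iff, cubez, Set.mem_ofPred_eq]
      exact funext_iff
    rw [h3]
    exact volume_cubez _ (by positivity) _
  rw [h1]
  calc _ ≤ ∑' Y : Fin m → ℤ, Phi L g Y ^ (m + 1) * ENNReal.ofReal ((1 / 2 ^ L) ^ m) :=
        ENNReal.tsum_le_tsum fun Y => mul_le_mul_right (h2 Y) _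
    _ = (∑' Y : Fin m → ℤ, Phi L g Y ^ (m + 1)) * ENNReal.ofReal ((1 / 2 ^ L) ^ m) :=
        ENNReal.tsum_mul_right
    _ ≤ (3 ^ m * (ENNReal.ofReal (5 * 17 ^ m * ((m + 1) / 2) ^ m / 2 ^ L) ^ (m + 1) *
        (ENNReal.ofReal (C * (2 : ℝ) ^ (ε * L) * 2 ^ (m * L)) *
          (2 ^ ((m + 1) * L) * ∫⁻ x, g x ^ (m + 1))))) * ENNReal.ofReal ((1 / 2 ^ L) ^ m) :=
        mul_le_mul_left (tsum_Phi_le H hg) _
    _ = _ := by
        have e1 : (3 : ENNReal) ^ m = ENNReal.ofReal (3 ^ m) := by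
          rw [ENNReal.ofReal_pow (by norm_num)]
          norm_num
        have e2 : (2 : ENNReal) ^ ((m + 1) * L) = ENNReal.ofReal (2 ^ ((m + 1) * L)) := by
          rw [ENNReal.ofReal_pow (by norm_num)]
          norm_num
        rw [e1, e2, ← ENNReal.ofReal_pow (by positivity)]
        calc _ = (ENNReal.ofReal (3 ^ m) *
              ENNReal.ofReal ((5 * 17 ^ m * ((m + 1) / 2) ^ m / 2 ^ L) ^ (m + 1)) *
              ENNReal.ofReal (C * (2 : ℝ) ^ (ε * L) * 2 ^ (m * L)) *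
              ENNReal.ofReal (2 ^ ((m + 1) * L)) * ENNReal.ofReal ((1 / 2 ^ L) ^ m)) *
              ∫⁻ x, g x ^ (m + 1) := by ring
          _ = _ := by
            rw [← ENNReal.ofReal_mul (by positivity), ← ENNReal.ofReal_mul (by positivity),
              ← ENNReal.ofReal_mul (by positivity), ← ENNReal.ofReal_mul (by positivity)]
            congr 2
            rw [div_pow, ← pow_mul, one_div, inv_pow, ← pow_mul]
            rw [show L * (m + 1) = (m + 1) * L by ring, show L * m = m * L by ring]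
            field_simp

/-- isometries do not change the maximal function -/
lemma kakeyaMax_map {n : ℕ} (U : EuclideanSpace ℝ (Fin n) ≃ₗᵢ[ℝ] EuclideanSpace ℝ (Fin n))
    (δ : ℝ) (f : EuclideanSpace ℝ (Fin n) → ENNReal) (e : EuclideanSpace ℝ (Fin n)) :
    kakeyaMax δ f e ≤ kakeyaMax δ (fun x => f (U.symm x)) (U e) := by
  have hmp : MeasurePreserving U.toHomeomorph.toMeasurableEquiv volume volume :=
    U.measurePreserving
  refine iSup_le fun a => ?_
  refine le_trans (le_of_eq ?_) (le_iSup (fun b => (∫⁻ x in tube δ b (U e), f (U.symm x)) /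
    volume (tube δ b (U e))) (U a))
  have h1 : tube δ a e = U.toHomeomorph.toMeasurableEquiv ⁻¹' tube δ (U a) (U e) := by
    ext x
    exact (mem_tube_map U δ a e x).symm
  have h2 : volume (tube δ a e) = volume (tube δ (U a) (U e)) := by
    rw [h1]
    exact hmp.measure_preimage_equiv _
  have h3 : ∫⁻ x in tube δ a e, f x = ∫⁻ x in tube δ (U a) (U e), f (U.symm x) := by
    have h4 := hmp.setLIntegral_comp_preimage_emb (MeasurableEquiv.measurableEmbedding _)
      (fun x => f (U.symm x)) (tube δ (U a) (U e))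
    rw [← h4, ← h1]
    refine lintegral_congr fun x => ?_
    congr 1
    exact (U.symm_apply_apply x).symm
  rw [h2, h3]

lemma sum_pow_le {ι : Type*} (s : Finset ι) (a : ι → ENNReal) {n : ℕ} (hn : n ≠ 0) :
    (∑ i ∈ s, a i) ^ n ≤ (#s : ENNReal) ^ n * ∑ i ∈ s, a i ^ n := by
  rcases s.eq_empty_or_nonempty with rfl | hs
  · simp [hn]
  · obtain ⟨i, hi, hmax⟩ := exists_max_image s a hs
    have h1 : ∑ j ∈ s, a j ≤ #s * a i := by
      refine (sum_le_sum hmax).trans (le_of_eq ?_)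
      rw [sum_const, nsmul_eq_mul]
    refine (pow_le_pow_left' h1 n).trans ?_
    rw [mul_pow]
    exact mul_le_mul_right (single_le_sum (f := fun i => a i ^ n) (fun _ _ => zero_le) hi) _

/-- transfer of an integral over the sphere to an integral over slopes -/
lemma lintegral_slope_le
    (U : EuclideanSpace ℝ (Fin (m + 1)) ≃ₗᵢ[ℝ] EuclideanSpace ℝ (Fin (m + 1)))
    {H : (Fin m → ℝ) → ENNReal} (hH : Measurable H) :
    ∫⁻ e in {e : Metric.sphere (0 : EuclideanSpace ℝ (Fin (m + 1))) 1 |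
      0 < (U e.1).ofLp (Fin.last m)}, H (slope (U e.1))
      ∂(volume : Measure (EuclideanSpace ℝ (Fin (m + 1)))).toSphere ≤
      ((m + 1 : ℕ) : ENNReal) * ∫⁻ v, H v := by
  set σ := (volume : Measure (EuclideanSpace ℝ (Fin (m + 1)))).toSphere with hσ
  set S : Set (Metric.sphere (0 : EuclideanSpace ℝ (Fin (m + 1))) 1) :=
    {e | 0 < (U e.1).ofLp (Fin.last m)} with hS
  have hU : Measurable fun e : Metric.sphere (0 : EuclideanSpace ℝ (Fin (m + 1))) 1 => U e.1 :=
    U.continuous.measurable.comp measurable_subtype_coe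
  have hsl : Measurable fun e : Metric.sphere (0 : EuclideanSpace ℝ (Fin (m + 1))) 1 =>
      slope (U e.1) := measurable_slope.comp hU
  have h1 : (σ.restrict S).map (fun e => slope (U e.1)) ≤
      ((m + 1 : ℕ) : ENNReal) • (volume : Measure (Fin m → ℝ)) := by
    refine Measure.le_iff.2 fun A hA => ?_
    rw [Measure.map_apply hsl hA, Measure.restrict_apply (hsl hA), Measure.smul_apply, smul_eq_mul]
    refine le_trans (le_of_eq ?_) (toSphere_slope_le U hA)
    congr 1
    ext e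
    simp only [Set.mem_inter_iff, Set.mem_preimage, hS, Set.mem_ofPred_eq]
    exact and_comm
  rw [← lintegral_map hH hsl]
  refine (lintegral_mono' h1 le_rfl).trans (le_of_eq ?_)
  rw [lintegral_smul_measure, smul_eq_mul]

/-- The Kakeya maximal inequality in `ℝ ^ (m + 1)` at the exponent `m + 1`. -/
def KMax (m : ℕ) : Prop :=
  ∀ ε : ℝ, 0 < ε → ∃ C : ℝ, ∀ δ : ℝ, 0 < δ → δ < 1 →
    ∀ f : EuclideanSpace ℝ (Fin (m + 1)) → ENNReal, Measurable f →
      ∃ G : EuclideanSpace ℝ (Fin (m + 1)) → ENNReal, Measurable G ∧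
        (∀ e, ‖e‖ = 1 → kakeyaMax δ f e ≤ G e) ∧
        ∫⁻ e, G e ^ (m + 1) ∂(surf (m + 1)) ≤
          ENNReal.ofReal (C * δ ^ (-ε)) * ∫⁻ x, f x ^ (m + 1)

/-- the scale of `δ` -/
lemma exists_scale {δ : ℝ} (h0 : 0 < δ) (h1 : δ < 1) : ∃ L : ℕ, 1 ≤ δ * 2 ^ L ∧ δ * 2 ^ L ≤ 2 := by
  have hex : ∃ L : ℕ, 1 ≤ δ * 2 ^ L := by
    obtain ⟨L, hL⟩ := pow_unbounded_of_one_lt (1 / δ) (by norm_num : (1 : ℝ) < 2)
    refine ⟨L, ?_⟩
    rw [div_lt_iff₀ h0] at hL
    linarith
  classical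
  refine ⟨Nat.find hex, Nat.find_spec hex, ?_⟩
  rcases Nat.eq_zero_or_pos (Nat.find hex) with h | h
  · rw [h]
    linarith
  · have h2 := Nat.find_min hex (m := Nat.find hex - 1) (by omega)
    push Not at h2
    have h3 : (2 : ℝ) ^ Nat.find hex = 2 * 2 ^ (Nat.find hex - 1) := by
      rw [← pow_succ']
      congr 1
      omega
    rw [h3]
    linarith

theorem kmax_of_dm (h : DM m) : KMax m := by
  classical
  intro ε hε
  obtain ⟨C, hC, H⟩ := h ε hε
  set N : ℝ := ((m + 1 : ℕ) : ℝ) * 2 with hN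
  set D : ℝ := 3 ^ m * (5 * 17 ^ m * ((m + 1) / 2) ^ m) ^ (m + 1) * C with hD
  refine ⟨N ^ (m + 1) * (N * ((m + 1) * (D * 2 ^ ε))), fun δ hδ0 hδ1 f hf => ?_⟩
  obtain ⟨L, hL1, hL2⟩ := exists_scale hδ0 hδ1
  set U : Fin (m + 1) × Bool →
      (EuclideanSpace ℝ (Fin (m + 1)) ≃ₗᵢ[ℝ] EuclideanSpace ℝ (Fin (m + 1))) :=
    fun q => swapIso q.1 q.2 with hU
  set g : Fin (m + 1) × Bool → EuclideanSpace ℝ (Fin (m + 1)) → ENNReal :=
    fun q x => f ((U q).symm x) with hg
  have hgm : ∀ q, Measurable (g q) := fun q => hf.comp (U q).symm.continuous.measurable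
  have hgi : ∀ q, ∫⁻ x, g q x ^ (m + 1) = ∫⁻ x, f x ^ (m + 1) := fun q =>
    (U q).symm.measurePreserving.lintegral_comp (f := fun x => f x ^ (m + 1)) (hf.pow_const _)
  have hUm : ∀ q, Measurable (U q) := fun q => (U q).continuous.measurable
  set G0 : Fin (m + 1) × Bool → EuclideanSpace ℝ (Fin (m + 1)) → ENNReal := fun q e =>
    {e | 0 < (U q e).ofLp (Fin.last m)}.indicator
      (fun e => Phi L (g q) (Yfl L (slope (U q e)))) e with hG0
  have hSm : ∀ q, MeasurableSet {e : EuclideanSpace ℝ (Fin (m + 1)) |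
      0 < (U q e).ofLp (Fin.last m)} := fun q =>
    measurableSet_lt measurable_const ((measurable_coord _).comp (hUm q))
  have hG0m : ∀ q, Measurable (G0 q) := fun q =>
    ((measurable_PhiY L (g q)).comp (measurable_slope.comp (hUm q))).indicator (hSm q)
  refine ⟨fun e => ∑ q, G0 q e, Finset.measurable_sum _ fun q _ => hG0m q, ?_, ?_⟩
  · intro e he
    have hne : e ≠ 0 := by
      intro h0
      rw [h0, norm_zero] at he
      exact zero_ne_one he
    obtain ⟨i, b, h1, h2⟩ := exists_swapIso hne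
    have hUe : ‖U (i, b) e‖ = 1 := by rw [LinearIsometryEquiv.norm_map, he]
    refine (kakeyaMax_map (U (i, b)) δ f e).trans ?_
    refine le_trans ?_ (single_le_sum (f := fun q => G0 q e) (fun _ _ => zero_le)
      (mem_univ (i, b)))
    have h3 : G0 (i, b) e = Phi L (g (i, b)) (Yfl L (slope (U (i, b) e))) :=
      Set.indicator_of_mem (s := {e | 0 < (U (i, b) e).ofLp (Fin.last m)}) h1 _
    simp only [h3]
    have hv : ∀ j, |slope (U (i, b) e) j| ≤ 1 := by
      intro j
      rw [slope, abs_div, abs_of_pos h1]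
      exact div_le_one_of_le₀ (h2 _) h1.le
    have h4 := kakeyaMax_le_Phi hδ1.le hL2 hL1 hv (g (i, b))
    rwa [dir_slope hUe h1] at h4
  · have hb : ∀ q, ∫⁻ e, G0 q e ^ (m + 1) ∂(surf (m + 1)) ≤
        ((m + 1 : ℕ) : ENNReal) * (ENNReal.ofReal (D * (2 : ℝ) ^ (ε * L)) *
          ∫⁻ x, f x ^ (m + 1)) := by
      intro q
      have h1 : ∫⁻ e, G0 q e ^ (m + 1) ∂(surf (m + 1)) =
          ∫⁻ e in {e : Metric.sphere (0 : EuclideanSpace ℝ (Fin (m + 1))) 1 |
            0 < (U q e.1).ofLp (Fin.last m)}, Phi L (g q) (Yfl L (slope (U q e.1))) ^ (m + 1)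
            ∂(volume : Measure (EuclideanSpace ℝ (Fin (m + 1)))).toSphere := by
        unfold surf
        have hS' : MeasurableSet {e : Metric.sphere (0 : EuclideanSpace ℝ (Fin (m + 1))) 1 |
            0 < (U q e.1).ofLp (Fin.last m)} := measurable_subtype_coe (hSm q)
        rw [lintegral_map ((hG0m q).pow_const _) measurable_subtype_coe,
          ← lintegral_indicator hS']
        refine lintegral_congr fun e => ?_
        by_cases he : 0 < (U q e.1).ofLp (Fin.last m)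
        · rw [Set.indicator_of_mem (by exact he)]
          congr 1
          exact Set.indicator_of_mem (s := {e | 0 < (U q e).ofLp (Fin.last m)}) he _
        · rw [Set.indicator_of_notMem (by exact he)]
          have : G0 q e.1 = 0 :=
            Set.indicator_of_notMem (s := {e | 0 < (U q e).ofLp (Fin.last m)}) he _
          rw [this]
          exact zero_pow (Nat.succ_ne_zero m)
      rw [h1]
      refine (lintegral_slope_le (U q)
        (H := fun v => Phi L (g q) (Yfl L v) ^ (m + 1)) ((measurable_PhiY L (g q)).pow_const _)).trans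
        (mul_le_mul_right ?_ _)
      rw [← hgi q]
      exact lintegral_Phi_le hC (H L) (hgm q)
    have hcardq : (#(univ : Finset (Fin (m + 1) × Bool)) : ENNReal) = ENNReal.ofReal N := by
      rw [card_univ, Fintype.card_prod, Fintype.card_fin, Fintype.card_bool, hN,
        ← ENNReal.ofReal_natCast]
      congr 1
      push_cast
      ring
    have h2L : (2 : ℝ) ^ (ε * L) ≤ 2 ^ ε * δ ^ (-ε) := by
      have h3 : (2 : ℝ) ^ L ≤ 2 * δ⁻¹ := by
        rw [← div_eq_mul_inv, le_div_iff₀ hδ0]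
        linarith
      have h4 : (2 : ℝ) ^ (ε * L) = ((2 : ℝ) ^ L) ^ ε := by
        rw [← Real.rpow_natCast, ← Real.rpow_mul (by norm_num)]
        congr 1
        ring
      rw [h4]
      refine (Real.rpow_le_rpow (by positivity) h3 hε.le).trans (le_of_eq ?_)
      rw [Real.mul_rpow (by norm_num) (by positivity), Real.inv_rpow hδ0.le,
        Real.rpow_neg hδ0.le]
    calc ∫⁻ e, (∑ q, G0 q e) ^ (m + 1) ∂(surf (m + 1))
        ≤ ∫⁻ e, ENNReal.ofReal N ^ (m + 1) * ∑ q, G0 q e ^ (m + 1) ∂(surf (m + 1)) := by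
          refine lintegral_mono fun e => ?_
          rw [← hcardq]
          exact sum_pow_le _ _ (Nat.succ_ne_zero m)
      _ = ENNReal.ofReal N ^ (m + 1) * ∑ q, ∫⁻ e, G0 q e ^ (m + 1) ∂(surf (m + 1)) := by
          rw [lintegral_const_mul _ (Finset.measurable_sum _ fun q _ => (hG0m q).pow_const _),
            lintegral_finsetSum _ fun q _ => (hG0m q).pow_const _]
      _ ≤ ENNReal.ofReal N ^ (m + 1) * ∑ _q : Fin (m + 1) × Bool, ((m + 1 : ℕ) : ENNReal) *
            (ENNReal.ofReal (D * (2 : ℝ) ^ (ε * L)) * ∫⁻ x, f x ^ (m + 1)) :=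
          mul_le_mul_right (sum_le_sum fun q _ => hb q) _
      _ = ENNReal.ofReal (N ^ (m + 1) * (N * ((m + 1) * (D * (2 : ℝ) ^ (ε * L))))) *
            ∫⁻ x, f x ^ (m + 1) := by
          have e3 : ((m + 1 : ℕ) : ENNReal) = ENNReal.ofReal (m + 1) := by
            rw [← ENNReal.ofReal_natCast]
            push_cast
            rfl
          rw [sum_const, nsmul_eq_mul, hcardq, e3, ← ENNReal.ofReal_pow (by positivity),
            ← mul_assoc, ← mul_assoc, ← mul_assoc, ← ENNReal.ofReal_mul (by positivity),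
            ← ENNReal.ofReal_mul (by positivity), ← ENNReal.ofReal_mul (by positivity)]
          congr 2
          ring
      _ ≤ _ := by
          refine mul_le_mul_left (ENNReal.ofReal_le_ofReal ?_) _
          calc N ^ (m + 1) * (N * ((m + 1) * (D * (2 : ℝ) ^ (ε * L)))) ≤
                N ^ (m + 1) * (N * ((m + 1) * (D * (2 ^ ε * δ ^ (-ε))))) := by
                gcongr
            _ = _ := by ring

/-- the front end: the combinatorial estimate implies the maximal inequality -/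
theorem kmax_of_CS (h : CS m) : KMax m := kmax_of_dm (dm_of_CS h)

end Vale.Agent.P127.M3
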