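import Vale.Agent.P127.M3.FrontF
import Vale.Agent.P127.U.Ent

/-!
# P127 / M3 : front end, part G

The entropic estimate `EN m` from the statement for systems (ultralimits).
-/

namespace Vale.Agent.P127.M3

open Finset Filter Topology Vale.Agent.P127 Vale.Agent.P127.Stk Vale.Agent.P127.U

variable {m : ℕ}

/-- The statement for systems, integer form: `x`, `y` integer vectors below `2 ^ L`, `x` a function
of `y`, `t` an integer below `2 ^ L`. -/
def ENS (m : ℕ) : Prop :=
  ∀ (S : Sys) (x y : S.RV (Fin m → ℤ)) (t : S.RV ℕ),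
    (∀ i ω j, 0 ≤ x i ω j ∧ x i ω j < 2 ^ S.L i) → (∀ i ω j, 0 ≤ y i ω j ∧ y i ω j < 2 ^ S.L i) →
    (∀ i ω, t i ω < 2 ^ S.L i) → (∀ i ω ω', y i ω = y i ω' → x i ω = x i ω') →
    S.hc y (Sys.pr (fun i ω => pos (S.L i) (x i ω, y i ω) (t i ω)) t) ≤ m * (1 - S.hc t y)

theorem EN_of_ENS (h : ENS m) : EN m := by
  classical
  intro ε hε
  by_contra hcon
  push Not at hcon
  have hlog : 0 < Real.log 2 := Real.log_pos (by norm_num)
  choose L hL Ω hfin P x y t hx hy ht hxy hlt using hcon
  have hLtop : Tendsto L (uf : Filter ℕ) atTop := by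
    have h1 : Tendsto L atTop atTop := tendsto_atTop_mono hL tendsto_id
    exact h1.mono_left uf_le
  let S : Sys := ⟨Ω, hfin, P, L, hLtop⟩
  have key := h S x y t hx hy ht hxy
  -- tameness
  have hcardy : ∀ i, (P i).H (y i) ≤ (m : ℝ) * ((L i : ℝ) * Real.log 2) := by
    intro i
    have hmem : ∀ ω, y i ω ∈ Ybox m (L i) := fun ω => mem_Ybox.2 fun j => hy i ω j
    have h1 := (P i).H_le_log_card (fun ω => (⟨y i ω, hmem ω⟩ : Ybox m (L i)))
    rw [Fintype.card_coe] at h1
    have h2 : (#(Ybox m (L i)) : ℝ) = 2 ^ (m * L i) := by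
      unfold Ybox
      rw [Fintype.card_piFinset, prod_const, card_univ, Fintype.card_fin, Int.card_Ico, sub_zero]
      have : ((2 : ℤ) ^ L i).toNat = 2 ^ L i := by
        have : ((2 : ℤ) ^ L i) = ((2 ^ L i : ℕ) : ℤ) := by push_cast; rfl
        rw [this, Int.toNat_natCast]
      rw [this, ← pow_mul, mul_comm]
      push_cast
      rfl
    rw [h2, Real.log_pow] at h1
    refine le_trans (le_of_eq ?_) (h1.trans (le_of_eq ?_))
    · refine (P i).H_congr fun ω ω' => ?_
      rw [Subtype.mk.injEq]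
    · push_cast
      ring
  have hty : Sys.Tame (S := S) y := ⟨m, Eventually.of_forall hcardy⟩
  have hcardt : ∀ i, (P i).H (t i) ≤ 1 * ((L i : ℝ) * Real.log 2) := by
    intro i
    have h1 := (P i).H_le_log_card (fun ω => (⟨t i ω, ht i ω⟩ : Fin (2 ^ L i)))
    rw [Fintype.card_fin] at h1
    push_cast at h1
    rw [Real.log_pow] at h1
    refine le_trans (le_of_eq ?_) (h1.trans (le_of_eq ?_))
    · refine (P i).H_congr fun ω ω' => ?_
      rw [Fin.mk.injEq]
    · ring
  have htt : Sys.Tame (S := S) t := ⟨1, Eventually.of_forall hcardt⟩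
  have hnm : ∀ i, S.nm i = (L i : ℝ) * Real.log 2 := fun i => rfl
  -- the contradiction
  have h1 : S.hc y (Sys.pr (fun i ω => pos (S.L i) (x i ω, y i ω) (t i ω)) t) ≥
      m * (1 - S.hc t y) + ε / Real.log 2 := by
    have hU1 := Sys.UB.hc hty (Sys.pr (fun i ω => pos (S.L i) (x i ω, y i ω) (t i ω)) t)
    have hU2 := Sys.UB.hc htt y
    have hU3 : UB fun i => (m : ℝ) * (1 - Stk.hc (P i) (t i) (y i) / S.nm i) + ε / Real.log 2 :=
      (((UB.const 1).sub hU2).const_mul (m : ℝ)).add (UB.const _)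
    have h2 : ulim (fun i => (m : ℝ) * (1 - Stk.hc (P i) (t i) (y i) / S.nm i) +
        ε / Real.log 2) = m * (1 - S.hc t y) + ε / Real.log 2 := by
      rw [ulim_add (((UB.const 1).sub hU2).const_mul (m : ℝ)) (UB.const _), ulim_const,
        ulim_const_mul _ ((UB.const 1).sub hU2), ulim_sub (UB.const 1) hU2, ulim_const]
      rfl
    rw [ge_iff_le, ← h2]
    refine ulim_le hU3 hU1 ?_
    filter_upwards [S.nm_pos] with i hi
    have h3 := (hlt i).le
    rw [le_div_iff₀ hi]
    have h4 : ((m : ℝ) * (1 - Stk.hc (P i) (t i) (y i) / S.nm i) + ε / Real.log 2) * S.nm i =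
        m * (L i * Real.log 2 - Stk.hc (P i) (t i) (y i)) + ε * L i := by
      have h5 : Stk.hc (P i) (t i) (y i) / S.nm i * S.nm i = Stk.hc (P i) (t i) (y i) :=
        div_mul_cancel₀ _ hi.ne'
      have h6 : ε / Real.log 2 * S.nm i = ε * L i := by
        rw [hnm]
        field_simp
      calc _ = (m : ℝ) * (S.nm i - Stk.hc (P i) (t i) (y i) / S.nm i * S.nm i) +
            ε / Real.log 2 * S.nm i := by ring
        _ = _ := by rw [h5, h6, hnm]
    rw [h4]
    exact h3
  have h2 : 0 < ε / Real.log 2 := by positivity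
  linarith

/-- the statement for systems implies the maximal inequality -/
theorem kmax_of_ENS (h : ENS m) : KMax m := kmax_of_EN (EN_of_ENS h)

end Vale.Agent.P127.M3
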