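import Vale.Agent.P127.M3.FrontG
import Vale.Agent.P117.K.BrX

/-!
# P127 / M3 : front end, part H

The Kakeya maximal inequality in `R^3` from the entropic theorem with every price `N > 2` :
`kmax_of_JS : (∀ N > 2, JS N 0) → KMax 2`.
-/

namespace Vale.Agent.P127.M3

open Finset Vale.Agent.P127 Vale.Agent.P127.Stk

/-- number of integers in an interval -/
lemma card_Icc_real (x A : ℝ) (hA : 0 ≤ A) : ((Finset.Icc ⌈x⌉ ⌊x + A⌋).card : ℝ) ≤ A + 1 := by
  rw [Int.card_Icc]
  have h1 := Int.le_ceil x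
  have h2 := Int.floor_le (x + A)
  have h3 : (((⌊x + A⌋ + 1 - ⌈x⌉).toNat : ℤ) : ℝ) ≤ A + 1 := by
    rw [Int.toNat_eq_max]
    push_cast
    rw [max_le_iff]
    constructor
    · linarith
    · linarith
  exact_mod_cast h3

/-- a finite set of integer points with one coordinate in an interval of length `A` and the other
one in an interval of length `B` depending on the first one -/
lemma card_pts {ι : Type*} [DecidableEq ι] (F : Finset ι) (p q : ι → ℤ)
    (hinj : ∀ v ∈ F, ∀ w ∈ F, p v = p w → q v = q w → v = w) (α A B : ℝ) (β : ℤ → ℝ) (hA : 0 ≤ A)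
    (hB : 0 ≤ B) (h1 : ∀ v ∈ F, α ≤ p v ∧ (p v : ℝ) ≤ α + A)
    (h2 : ∀ v ∈ F, β (p v) ≤ q v ∧ (q v : ℝ) ≤ β (p v) + B) :
    (F.card : ℝ) ≤ (A + 1) * (B + 1) := by
  classical
  have hmap : ∀ v ∈ F, p v ∈ Finset.Icc ⌈α⌉ ⌊α + A⌋ := by
    intro v hv
    rw [mem_Icc, Int.ceil_le, Int.le_floor]
    exact h1 v hv
  rw [Finset.card_eq_sum_card_fiberwise hmap]
  push_cast
  calc ∑ z ∈ Finset.Icc ⌈α⌉ ⌊α + A⌋, ((F.filter fun v => p v = z).card : ℝ)
      ≤ ∑ z ∈ Finset.Icc ⌈α⌉ ⌊α + A⌋, (B + 1) := by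
        refine sum_le_sum fun z _ => ?_
        refine le_trans ?_ (card_Icc_real (β z) B hB)
        have : (F.filter fun v => p v = z).card ≤ (Finset.Icc ⌈β z⌉ ⌊β z + B⌋).card := by
          refine card_le_card_of_injOn q ?_ ?_
          · intro v hv
            have hv' := mem_filter.1 (mem_coe.1 hv)
            rw [mem_coe, mem_Icc, Int.ceil_le, Int.le_floor]
            have := h2 v hv'.1
            rw [hv'.2] at this
            exact this
          · intro v hv w hw e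
            have hv' := mem_filter.1 (mem_coe.1 hv)
            have hw' := mem_filter.1 (mem_coe.1 hw)
            exact hinj v hv'.1 w hw'.1 (hv'.2.trans hw'.2.symm) e
        exact_mod_cast this
    _ = ((Finset.Icc ⌈α⌉ ⌊α + A⌋).card : ℝ) * (B + 1) := by rw [sum_const, nsmul_eq_mul]
    _ ≤ (A + 1) * (B + 1) := mul_le_mul_of_nonneg_right (card_Icc_real α A hA) (by linarith)

/-- the case of a slope at most `√3` -/
lemma card_rect_aux {ι : Type*} [DecidableEq ι] (F : Finset ι) (p q : ι → ℤ)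
    (hinj : ∀ v ∈ F, ∀ w ∈ F, p v = p w → q v = q w → v = w) {a b w1 w2 c d : ℝ}
    (hab : a ^ 2 + b ^ 2 = 1) (ha : 1 / 2 ≤ |a|) (hw1 : 1 ≤ w1) (hw2 : w1 ≤ w2)
    (h : ∀ v ∈ F, |a * ((q v : ℝ) - d) + b * ((p v : ℝ) - c)| ≤ w1 ∧
      |-b * ((q v : ℝ) - d) + a * ((p v : ℝ) - c)| ≤ w2) :
    (F.card : ℝ) ≤ 25 * (w1 * w2) := by
  have ha1 : |a| ≤ 1 := by
    rw [abs_le]
    constructor <;> nlinarith [sq_nonneg b]
  have hb1 : |b| ≤ 1 := by
    rw [abs_le]
    constructor <;> nlinarith [sq_nonneg a]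
  have ha0 : a ≠ 0 := by
    rintro rfl
    rw [abs_zero] at ha
    linarith
  have hapos : 0 < |a| := abs_pos.2 ha0
  have key := card_pts F p q hinj (c - 2 * w2) (4 * w2) (4 * w1)
    (fun z => d - b * ((z : ℝ) - c) / a - 2 * w1) (by linarith) (by linarith) ?_ ?_
  · refine key.trans ?_
    nlinarith
  · intro v hv
    obtain ⟨h1, h2⟩ := h v hv
    have e : (p v : ℝ) - c = b * (a * ((q v : ℝ) - d) + b * ((p v : ℝ) - c)) +
        a * (-b * ((q v : ℝ) - d) + a * ((p v : ℝ) - c)) := by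
      linear_combination (-((p v : ℝ) - c)) * hab
    have h3 : |(p v : ℝ) - c| ≤ 2 * w2 := by
      rw [e]
      refine (abs_add_le _ _).trans ?_
      rw [abs_mul, abs_mul]
      have g1 : |b| * |a * ((q v : ℝ) - d) + b * ((p v : ℝ) - c)| ≤ 1 * w1 :=
        mul_le_mul hb1 h1 (abs_nonneg _) (by norm_num)
      have g2 : |a| * |-b * ((q v : ℝ) - d) + a * ((p v : ℝ) - c)| ≤ 1 * w2 :=
        mul_le_mul ha1 h2 (abs_nonneg _) (by norm_num)
      linarith
    rw [abs_le] at h3
    constructor <;> linarith [h3.1, h3.2]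
  · intro v hv
    obtain ⟨h1, -⟩ := h v hv
    have e : (q v : ℝ) - d + b * ((p v : ℝ) - c) / a =
        (a * ((q v : ℝ) - d) + b * ((p v : ℝ) - c)) / a := by
      field_simp
    have h3 : |(q v : ℝ) - d + b * ((p v : ℝ) - c) / a| ≤ 2 * w1 := by
      rw [e, abs_div, div_le_iff₀ hapos]
      nlinarith
    rw [abs_le] at h3
    constructor <;> linarith [h3.1, h3.2]

/-- lines in different directions form a Katz-Tao family -/
theorem ktf_of_fn (T : Finset ((Fin 2 → ℤ) × (Fin 2 → ℤ)))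
    (h : ∀ l ∈ T, ∀ l' ∈ T, l.2 = l'.2 → l = l') : Vale.Agent.P117.K.KTf 25 T := by
  classical
  intro a b w1 w2 x0 y0 hab hw1 hw2
  set F := T.filter (fun l => Vale.Agent.P117.K.inP a b w1 w2 x0 y0 l) with hF
  have hT : ∀ v ∈ F, v ∈ T := fun v hv => (mem_filter.1 hv).1
  have hP : ∀ v ∈ F, Vale.Agent.P117.K.inP a b w1 w2 x0 y0 v := fun v hv => (mem_filter.1 hv).2
  have hcase : 1 / 2 ≤ |a| ∨ 1 / 2 ≤ |b| := by
    by_contra hcon
    push Not at hcon
    have h1 : a ^ 2 < 1 / 4 := by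
      rw [← sq_abs]
      nlinarith [abs_nonneg a, hcon.1]
    have h2 : b ^ 2 < 1 / 4 := by
      rw [← sq_abs]
      nlinarith [abs_nonneg b, hcon.2]
    linarith
  rcases hcase with ha | hb
  · refine card_rect_aux F (fun l => l.2 1) (fun l => l.2 0) ?_ (a := a) (b := b) (c := y0 1)
      (d := y0 0) hab ha hw1 hw2 ?_
    · intro v hv w hw e1 e2
      refine h v (hT v hv) w (hT w hw) ?_
      funext j
      fin_cases j
      · exact e2
      · exact e1
    · intro v hv
      obtain ⟨-, -, h3, h4⟩ := hP v hv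
      exact ⟨h3, h4⟩
  · refine card_rect_aux F (fun l => l.2 0) (fun l => l.2 1) ?_ (a := b) (b := a) (c := y0 0)
      (d := y0 1) (by linarith) hb hw1 hw2 ?_
    · intro v hv w hw e1 e2
      refine h v (hT v hv) w (hT w hw) ?_
      funext j
      fin_cases j
      · exact e1
      · exact e2
    · intro v hv
      obtain ⟨-, -, h3, h4⟩ := hP v hv
      constructor
      · rw [add_comm]
        exact h3
      · have e : -a * ((v.2 1 : ℝ) - y0 1) + b * ((v.2 0 : ℝ) - y0 0) =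
            -(-b * ((v.2 0 : ℝ) - y0 0) + a * ((v.2 1 : ℝ) - y0 1)) := by ring
        rw [e, abs_neg]
        exact h4

/-- the entropic form for lines in different directions from the Katz-Tao form for every price
larger than `2` -/
theorem EN_of_StKT (h : ∀ N : ℝ, 2 < N → Vale.Agent.P117.K.StKT 0 N) : EN 2 := by
  intro ε hε
  have hlog : 0 < Real.log 2 := Real.log_pos (by norm_num)
  set η : ℝ := ε / (4 * Real.log 2) with hη
  have hη0 : 0 < η := by positivity
  obtain ⟨L₁, hL₁⟩ := h (2 + η) (by linarith) (ε / 4) (by positivity)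
  refine ⟨max L₁ ⌈4 * Real.log 25 / ε⌉₊, fun L hL Ω _ P x y t hx hy ht hxy => ?_⟩
  have hL1 : L₁ ≤ L := (le_max_left _ _).trans hL
  have hL2 : 4 * Real.log 25 / ε ≤ L := (Nat.le_ceil _).trans (by exact_mod_cast (le_max_right _ _).trans hL)
  have hKT : Vale.Agent.P117.K.KTf 25 (Vale.Agent.P117.K.suppL P x y) := by
    classical
    refine ktf_of_fn _ ?_
    intro l hl l' hl' e
    unfold Vale.Agent.P117.K.suppL at hl hl'
    obtain ⟨ω, -, rfl⟩ := mem_image.1 hl
    obtain ⟨ω', -, rfl⟩ := mem_image.1 hl'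
    simp only at e
    rw [hxy ω ω' e, e]
  have key := hL₁ L hL1 Ω P x y t 25 (by norm_num) hx hy ht hKT
  have e1 : hc P y (fun ω => (pos L (x ω, y ω) (t ω), t ω)) ≤
      hc P (fun ω => (x ω, y ω)) (fun ω => (pos L (x ω, y ω) (t ω), t ω)) :=
    hc_mono_left P fun ω ω' _ _ e => congrArg (fun q => q.1.2) e
  have e2 : hc P t (fun ω => (x ω, y ω)) = hc P t y := by
    refine hc_congr P (fun _ _ _ _ e => congrArg Prod.fst e) (fun _ _ _ _ e => congrArg Prod.fst e)
      ?_ ?_
    · intro ω ω' _ _ e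
      exact Prod.ext (hxy _ _ e) e
    · intro ω ω' _ _ e
      exact congrArg Prod.snd e
  rw [e2] at key
  have e3 : hc P (fun ω => (x ω, y ω)) (fun ω => (pos L (x ω, y ω) (t ω), t ω)) ≤
      2 * 0 * (L * Real.log 2) + (2 + η) * (L * Real.log 2 - hc P t y) + Real.log 25 + ε / 4 * L := key
  have e4 : 0 ≤ hc P t y := hc_nonneg P _ _
  have e5 : η * (L * Real.log 2 - hc P t y) ≤ ε / 4 * L := by
    have : η * (L * Real.log 2) = ε / 4 * L := by
      rw [hη]
      field_simp
    nlinarith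
  have e6 : Real.log 25 ≤ ε / 4 * L := by
    rw [div_le_iff₀ hε] at hL2
    linarith
  push_cast
  nlinarith

/-- **the Kakeya maximal inequality in `R^3` from the entropic theorem for every price `N > 2`** -/
theorem kmax_of_JS (h : ∀ N : ℝ, 2 < N → U.JS N 0) : KMax 2 :=
  kmax_of_EN (EN_of_StKT fun N hN => Vale.Agent.P117.K.stKT_of_JS (by linarith) (h N hN))

end Vale.Agent.P127.M3
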